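import Vale.Agent.P277Z.Tr.Sk
import Vale.Agent.P277.H19.NatD

/-!
# P277Z, block TR: bimeromorphic maps preserve integrals
-/

set_option maxSynthPendingDepth 3

open scoped Manifold ContDiff Topology
open Vale.Agent.P267.H175 Set Filter MeasureTheory Module
open Vale.Agent.P267.H928.Int ContinuousAlternatingMap
open Vale.Agent.P272.K (Cm Chart At)

noncomputable section

namespace Vale.Agent.P277Z.Tr

namespace Deg1

variable {d : ℕ} {X Y : Type} [TopologicalSpace X] [ChartedSpace (Cm d) X]
  [IsManifold 𝓘(ℂ, Cm d) ω X] [TopologicalSpace Y] [ChartedSpace (Cm d) Y]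
  [IsManifold 𝓘(ℂ, Cm d) ω Y]

theorem meas_null [MeasurableSpace X] [BorelSpace X] (P : Pou (Cm d) X) {A : Set X}
    (hm : MeasurableSet A) (hA : Null d A) : P.meas volume A = 0 := by
  rw [← lintegral_indicator_one hm, P.lintegral_meas volume (measurable_one.indicator hm),
    ENNReal.tsum_eq_zero]
  intro i
  refine (lintegral_congr_ae ?_).trans lintegral_zero
  filter_upwards [ae_restrict_mem (P.e i).open_target.measurableSet,
    ae_restrict_of_ae (measure_eq_zero_iff_ae_notMem.1 (hA _ (P.mem i)))] with z hz h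
  rw [indicator_of_notMem fun k => h ⟨_, ⟨k, (P.e i).map_target hz⟩, (P.e i).right_inv hz⟩,
    mul_zero]

theorem dens {n : ℕ} (b : Basis (Fin n) ℝ (Cm d)) {μ : X → Y} (hμ : HolM d d μ) (a : Fm d n Y)
    {y : X} {e : Chart d X} (he : e ∈ atlas (Cm d) X) {e' : Chart d Y} (he' : e' ∈ atlas (Cm d) Y)
    (hy : y ∈ e.source) (hy' : μ y ∈ e'.source) :
    cf b e (show Form (Cm d) ℝ n X from pb (Cm d) μ a) (e y) =
      |(fderiv ℝ (fun z => e' (μ (e.symm z))) (e y)).det| •
        cf b e' (show Form (Cm d) ℝ n Y from a) (e' (μ y)) := by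
  have h1 := (hμ.2 y e e' ⟨he, hy⟩ ⟨he', hy'⟩).differentiableAt.fderiv_restrictScalars ℝ
  have h2 : 0 ≤ (fderiv ℝ (fun z => e' (μ (e.symm z))) (e y)).det := by
    rw [h1, det_real]
    exact Complex.normSq_nonneg _
  rw [cf, cf, pull_eq_loc he _ (e.map_source hy), pull_eq_loc he' _ (e'.map_source hy'),
    loc_pb he he' a (hμ.smM y) hy hy', top_comp, abs_of_nonneg h2]

end Deg1

theorem deg1 : DEG1 := by
  intro d n b X Y _ _ _ _ _ _ _ _ _ _ μ O ψ h a ha
  let _ : MeasurableSpace X := borel X
  have : BorelSpace X := ⟨rfl⟩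
  let _ : MeasurableSpace Y := borel Y
  have : BorelSpace Y := ⟨rfl⟩
  have : SecondCountableTopology X := ChartedSpace.secondCountable_of_sigmaCompact (Cm d) X
  set P : Pou (Cm d) X := (exists_pou (E := Cm d) (M := X)).some
  set P' : Pou (Cm d) Y := (exists_pou (E := Cm d) (M := Y)).some
  have ha' : ∀ x, SmAt (pb (Cm d) μ a) x := fun x =>
    smAt_pb (.of_forall h.hol.smM) (ha _)
  have hO := h.isOpen.preimage h.hol.1
  have key := P277.H19.nat_dens volume P P'
    (isDens_cf b (show Form (Cm d) ℝ n X from pb (Cm d) μ a))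
    (isDens_cf b (show Form (Cm d) ℝ n Y from a))
    (P.integrable_quo volume (isDens_cf b _) ((cForm_of_sm ha').contForm.dcont b) isCompact_univ
      fun e he z hz h => absurd (mem_univ _) h)
    (P'.integrable_quo volume (isDens_cf b _) ((cForm_of_sm ha).contForm.dcont b) isCompact_univ
      fun e he z hz h => absurd (mem_univ _) h)
    hO h.isOpen h.hol.1.continuousOn (fun y hy => (h.sm y hy).1.continuousWithinAt)
    (fun _ hx => hx) (fun y hy => by rw [mem_preimage, h.right y hy]; exact hy)
    (fun x hx => h.left x hx) (fun y hy => h.right y hy)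
    fun y _ e he e' he' hy hy' =>
      ⟨((h.hol.smM y).chart he he' hy hy').differentiableAt (by simp),
        Deg1.dens b h.hol a he he' hy hy'⟩
  rw [Measure.restrict_eq_self_of_ae_mem (s := μ ⁻¹' O)
      (Deg1.meas_null P hO.measurableSet.compl h.null'),
    Measure.restrict_eq_self_of_ae_mem (s := O)
      (Deg1.meas_null P' h.isOpen.measurableSet.compl h.null)] at key
  exact key

end Vale.Agent.P277Z.Tr
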