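import Vale.Agent.P277Z.Tr.Sk

/-!
# P277Z, block TR: the lemma of Poincare with compact supports in the top degree
-/

set_option linter.all false
set_option maxSynthPendingDepth 3

open scoped Manifold ContDiff Topology
open Vale.Agent.P267.H175 Set Filter MeasureTheory Module
open Vale.Agent.P267.H928.Int ContinuousAlternatingMap Vale.Agent.P267.H68

noncomputable section

namespace Vale.Agent.P277Z.Tr

namespace Cpt

variable {E : Type} [NormedAddCommGroup E] [NormedSpace ℝ E] [FiniteDimensional ℝ E] {k : ℕ}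

theorem prim_comb {V : Set E} {a a' : E → E [⋀^Fin (k + 1)]→L[ℝ] ℝ} (h : Prim V a)
    (h' : Prim V a') (c c' : ℝ) : Prim V fun x => c • a x + c' • a' x := by
  obtain ⟨β, K, h1, h2, h3, h4, h5⟩ := h
  obtain ⟨β', K', h1', h2', h3', h4', h5'⟩ := h'
  refine ⟨c • β + c' • β', K ∪ K', (h1.const_smul c).add (h1'.const_smul c'), h2.union h2',
    union_subset h3 h3', fun x hx => ?_, fun x => ?_⟩
  · simp [h4 x fun h => hx (Or.inl h), h4' x fun h => hx (Or.inr h)]
  · rw [extDeriv_add ((h1.differentiable (by simp) x).const_smul c)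
      ((h1'.differentiable (by simp) x).const_smul c'), extDeriv_smul, extDeriv_smul, h5, h5']

theorem contDiff_hI' {a : E → E [⋀^Fin (k + 1)]→L[ℝ] ℝ} (ha : ContDiff ℝ ∞ a) :
    ContDiff ℝ ∞ fun q : (E × E) × ℝ => hI q.1.2 a q.1.1 (1 + q.2) := by
  have h1 : ContDiff ℝ ∞ fun q : (E × E) × ℝ => q.1.1 - q.1.2 := by fun_prop
  have h2 : ContDiff ℝ ∞ fun q : (E × E) × ℝ => q.1.2 + (1 + q.2) • (q.1.1 - q.1.2) := by fun_prop
  exact ((contDiff_const.add contDiff_snd).pow k).smul ((((cd2 (W := E [⋀^Fin k]→L[ℝ] ℝ)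
    (V := E [⋀^Fin (k + 1)]→L[ℝ] ℝ) curL).comp (ha.comp h2))).clm_apply h1)

theorem d_hom {a : E → E [⋀^Fin (k + 1)]→L[ℝ] ℝ} (ha : ContDiff ℝ ∞ a)
    (hc : ∀ x, extDeriv a x = 0) (p x : E) :
    extDeriv (fun x => ∫ s in (0 : ℝ)..1, hI p a x (1 + s)) x =
      (2 : ℝ) ^ (k + 1) • a (p + (2 : ℝ) • (x - p)) - a x := by
  have hg : ContDiff ℝ 1 fun q : E × ℝ => hI p a q.1 (1 + q.2) :=
    ((contDiff_hI' ha).of_le (by simp)).comp
      ((contDiff_fst.prodMk contDiff_const).prodMk contDiff_snd)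
  have h1 := continuous_A_fderiv (W := E [⋀^Fin k]→L[ℝ] ℝ) (V := E [⋀^Fin (k + 1)]→L[ℝ] ℝ)
    (alternatizeUncurryFinCLM ℝ E ℝ) hg x
  refine (A_fderiv_time (W := E [⋀^Fin k]→L[ℝ] ℝ) (V := E [⋀^Fin (k + 1)]→L[ℝ] ℝ)
    (alternatizeUncurryFinCLM ℝ E ℝ) hg x).trans ?_
  rw [intervalIntegral.integral_eq_sub_of_hasDerivAt
    (f := fun s : ℝ => (1 + s) ^ (k + 1) • a (p + (1 + s) • (x - p)))
    (fun t _ => ?_) (h1.intervalIntegrable _ _)]
  · simp [one_add_one_eq_two]
  · have h2 := hasDerivAt_homotopy p (t := 1 + t) (x := x) (ha.differentiable (by simp) _)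
    rw [hI, hc, _root_.map_zero, smul_zero, add_zero] at h2
    exact h2.comp_const_add 1 t

variable [MeasurableSpace E] [BorelSpace E] (μ : Measure E) [μ.IsAddHaarMeasure]

/-- the averaged homotopy -/
theorem avg {V K : Set E} (hV : Convex ℝ V) (hK : IsCompact K) (hKV : K ⊆ V)
    {a : E → E [⋀^Fin (k + 1)]→L[ℝ] ℝ} (ha : ContDiff ℝ ∞ a) (h0 : ∀ x ∉ K, a x = 0)
    (hc : ∀ x, extDeriv a x = 0) {ψ : E → ℝ} (hψ : ContDiff ℝ ∞ ψ) (h0' : ∀ x ∉ K, ψ x = 0) :
    Prim V fun x => (2 : ℝ) ^ (k + 1) • ∫ y, ψ y • a (y + (2 : ℝ) • (x - y)) ∂μ -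
      (∫ y, ψ y ∂μ) • a x := by
  let g : E × E → E [⋀^Fin k]→L[ℝ] ℝ := fun q =>
    ψ q.2 • ∫ s in (0 : ℝ)..1, hI q.2 a q.1 (1 + s)
  have hI0 : ContDiff ℝ ∞ fun q : E × E => ∫ s in (0 : ℝ)..1, hI q.2 a q.1 (1 + s) :=
    contDiffOn_univ.1 (contDiffOn_time (n := ⊤) isOpen_univ (contDiff_hI' ha).contDiffOn)
  have hg : ContDiff ℝ ∞ g := (hψ.comp contDiff_snd).smul hI0
  have hg0 : ∀ x ∈ (univ : Set E), ∀ y ∉ K, g (x, y) = 0 := fun x _ y hy => by
    simp only [g, h0' y hy, zero_smul]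
  have hl : LocallyIntegrable (fun _ : E => (1 : ℝ)) μ := locallyIntegrable_const 1
  refine ⟨fun x => ∫ y, (1 : ℝ) • g (x, y) ∂μ,
    (fun q : (E × E) × ℝ => q.1.1 + q.2 • (q.1.2 - q.1.1)) '' ((K ×ˢ K) ×ˢ Icc 0 1),
    contDiffOn_univ.1 (P231.Fm.contDiffOn_param μ (n := ⊤) isOpen_univ hK hl hg.contDiffOn hg0),
    ((hK.prod hK).prod isCompact_Icc).image (by fun_prop), ?_, fun x hx => ?_, fun x => ?_⟩
  · rintro _ ⟨q, hq, rfl⟩
    exact hV.add_smul_sub_mem (hKV hq.1.1) (hKV hq.1.2) hq.2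
  · refine integral_eq_zero_of_ae (Eventually.of_forall fun y => ?_)
    by_cases hy : y ∈ K
    · have h1 : ∀ s ∈ uIcc (0 : ℝ) 1, hI y a x (1 + s) = 0 := fun s hs => by
        rw [uIcc_of_le zero_le_one] at hs
        have h2 : 0 < 1 + s := by linarith [hs.1]
        rw [hI, h0 _ fun h => hx ⟨((y, _), (1 + s)⁻¹), ⟨⟨hy, h⟩, by positivity,
          inv_le_one_of_one_le₀ (by linarith [hs.1])⟩, by simp [inv_smul_smul₀ h2.ne']⟩,
          _root_.map_zero, smul_zero]
      simp only [g, intervalIntegral.integral_congr h1]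
      simp
    · simp [hg0 x trivial y hy]
  · have hg1 : ContDiff ℝ 1 g := hg.of_le (by simp)
    have h1 := P231.Fm.hasFDerivAt_param μ isOpen_univ hK hl hg1.contDiffOn hg0 (mem_univ x)
    have h2 : ∀ y, fderiv ℝ g (x, y) ∘L ContinuousLinearMap.inl ℝ E E =
        ψ y • fderiv ℝ (fun x => ∫ s in (0 : ℝ)..1, hI y a x (1 + s)) x := fun y => by
      have h3 : ContDiff ℝ ∞ fun x => ∫ s in (0 : ℝ)..1, hI y a x (1 + s) :=
        hI0.comp (f := fun x => (x, y)) (contDiff_id.prodMk contDiff_const)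
      have h4 := HasFDerivAt.comp (f := fun x => (x, y)) x
        (hg1.differentiable (by simp) (x, y)).hasFDerivAt (hasFDerivAt_prodMk_left x y)
      exact h4.unique ((h3.differentiable (by simp) x).hasFDerivAt.const_smul (ψ y))
    have h3 : Integrable (fun y => (1 : ℝ) •
        (fderiv ℝ g (x, y) ∘L ContinuousLinearMap.inl ℝ E E)) μ := by
      have h3 : Continuous fun y => fderiv ℝ g (x, y) ∘L ContinuousLinearMap.inl ℝ E E :=
        ((hg1.continuous_fderiv (by simp)).comp (Continuous.prodMk_right x)).clm_comp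
          continuous_const
      simp only [one_smul]
      refine h3.integrable_of_hasCompactSupport (HasCompactSupport.intro hK fun y hy => ?_)
      rw [h2, h0' y hy, zero_smul]
    have hs : ∀ {u : E → E [⋀^Fin (k + 1)]→L[ℝ] ℝ}, Continuous u →
        Integrable (fun y => ψ y • u y) μ := fun hu =>
      (hψ.continuous.smul hu).integrable_of_hasCompactSupport
        (HasCompactSupport.intro hK fun y hy => by simp [h0' y hy])
    have h4 := ((alternatizeUncurryFinCLM ℝ E ℝ (n := k)).integral_comp_comm h3).symm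
    rw [extDeriv, h1.fderiv]
    refine h4.trans ?_
    beta_reduce
    have h5 : Integrable (fun y => (2 : ℝ) ^ (k + 1) • ψ y • a (y + (2 : ℝ) • (x - y))) μ :=
      (hs (u := fun y => a (y + (2 : ℝ) • (x - y))) (ha.continuous.comp (by fun_prop))).smul
        ((2 : ℝ) ^ (k + 1))
    rw [← integral_smul_const, ← integral_smul, ← integral_sub h5 (hs continuous_const)]
    refine integral_congr_ae (Eventually.of_forall fun y => ?_)
    simp only [h2, one_smul, map_smul]
    rw [smul_comm, ← smul_sub, ← d_hom ha hc]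
    rfl

end Cpt

open Cpt in
/-- ROW CPT -/
theorem cpt : CPT := by
  intro E _ _ _ _ _ μ _ V K k b a _ hV hK hKV ha h0 hint
  have top : ∀ (u : E → E [⋀^Fin (k + 1)]→L[ℝ] ℝ) x, extDeriv u x = 0 := fun u x => by
    ext v
    refine (extDeriv u x).toAlternatingMap.map_linearDependent v fun h => ?_
    have h1 := h.fintype_card_le_finrank
    rw [finrank_eq_card_basis b] at h1
    simp at h1
  have hf : ContDiff ℝ ∞ fun x => a x b :=
    (ContinuousAlternatingMap.apply ℝ E ℝ b).contDiff.comp ha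
  have hf0 : ∀ x ∉ K, a x b = 0 := fun x hx => by rw [h0 x hx]; rfl
  have h1 := avg μ hV hK hKV ha h0 (top a) (hf.mul hf) fun x hx => by rw [hf0 x hx, zero_mul]
  have h2 := avg μ hV hK hKV (a := fun x => a x b • a x) (hf.smul ha)
    (fun x hx => by rw [h0 x hx, smul_zero]) (top _) hf hf0
  have h3 : ∀ y z, a y b • a z = a z b • a y := fun y z =>
    sub_eq_zero.1 (top_eq_zero b (by simp [mul_comm]))
  have h4 : ∀ x, ∫ y, (a y b * a y b) • a (y + (2 : ℝ) • (x - y)) ∂μ =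
      ∫ y, a y b • a (y + (2 : ℝ) • (x - y)) b • a (y + (2 : ℝ) • (x - y)) ∂μ := fun x => by
    have h5 : ∀ y, y + (2 : ℝ) • (x - y) = (2 : ℝ) • x - y := fun y => by module
    simp only [h5]
    rw [← integral_sub_left_eq_self _ μ ((2 : ℝ) • x)]
    simp only [sub_sub_cancel]
    exact integral_congr_ae (Eventually.of_forall fun y => by
      simp only [mul_smul]
      rw [h3 _ y, smul_comm])
  by_cases h : ∀ x, a x b = 0
  · refine ⟨0, ∅, contDiff_const, isCompact_empty, empty_subset _, fun _ _ => rfl, fun x => ?_⟩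
    rw [top_eq_zero b (h x), ← zero_smul ℝ 0, extDeriv_smul, zero_smul]
  · obtain ⟨x, hx⟩ := not_forall.1 h
    have h5 : 0 < ∫ y, a y b * a y b ∂μ :=
      (hf.mul hf).continuous.integral_pos_of_hasCompactSupport_nonneg_nonzero
        (HasCompactSupport.intro hK fun x hx => by rw [hf0 x hx, zero_mul])
        (fun _ => mul_self_nonneg _) (mul_ne_zero hx hx)
    convert prim_comb h1 h2 (-(∫ y, a y b * a y b ∂μ)⁻¹) (∫ y, a y b * a y b ∂μ)⁻¹ using 2 with z
    rw [h4, hint, zero_smul, sub_zero, smul_sub, neg_smul, neg_smul, inv_smul_smul₀ h5.ne']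
    abel

end Vale.Agent.P277Z.Tr
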