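import Vale.Agent.P267.H175.RPre
import Vale.Agent.P267.H928.Int.Cplx
import Vale.Agent.P272.K.Stmt

/-!
# P277Z, block TR: pull back and integration of real forms
-/

set_option linter.all false
set_option maxSynthPendingDepth 3

open scoped Manifold ContDiff Topology
open Vale.Agent.P267.H175 Set Filter MeasureTheory Module
open Vale.Agent.P267.H928.Int ContinuousAlternatingMap
open Vale.Agent.P272.K (Cm Chart At)

noncomputable section

namespace Vale.Agent.P277Z.Tr

section pb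

variable {E' : Type*} [NormedAddCommGroup E'] [NormedSpace ℝ E']
variable {E : Type*} [NormedAddCommGroup E] [NormedSpace ℝ E]
variable {X : Type*} [TopologicalSpace X] [ChartedSpace E' X]
variable {Y : Type*} [TopologicalSpace Y] [ChartedSpace E Y]

variable (E') in
/-- The pullback of a form by `F : X → Y`. -/
def pb {k : ℕ} (F : X → Y) (a : Y → E [⋀^Fin k]→L[ℝ] ℝ) (x : X) : E' [⋀^Fin k]→L[ℝ] ℝ :=
  (a (F x)).compContinuousLinearMap
    (fderiv ℝ (fun y => chartAt E (F x) (F ((chartAt E' x).symm y))) (chartAt E' x x))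

variable (E' E) in
/-- Smoothness of the map `F` at `x`. -/
def SmM (F : X → Y) (x : X) : Prop :=
  ContinuousAt F x ∧
    ContDiffAt ℝ ∞ (fun y => chartAt E (F x) (F ((chartAt E' x).symm y))) (chartAt E' x x)

omit [NormedSpace ℝ E'] [ChartedSpace E' X] in
theorem ev_symm {e : OpenPartialHomeomorph X E'} {x : X} (hx : x ∈ e.source) {U : Set X}
    (hU : U ∈ 𝓝 x) : ∀ᶠ z in 𝓝 (e x), e.symm z ∈ U := by
  have h1 : ContinuousAt e.symm (e x) := e.continuousAt_symm (e.map_source hx)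
  refine h1.eventually_mem ?_
  rw [e.left_inv hx]
  exact hU

variable [IsManifold 𝓘(ℝ, E') ∞ X] [IsManifold 𝓘(ℝ, E) ∞ Y]

theorem SmM.chart {F : X → Y} {x : X} (h : SmM E' E F x) {e : OpenPartialHomeomorph X E'}
    (he : e ∈ atlas E' X) {e' : OpenPartialHomeomorph Y E} (he' : e' ∈ atlas E Y)
    (hx : x ∈ e.source) (hx' : F x ∈ e'.source) :
    ContDiffAt ℝ ∞ (fun z => e' (F (e.symm z))) (e x) := by
  set c := chartAt E' x with hc
  set c' := chartAt E (F x) with hc'
  have hcx : x ∈ c.source := mem_chart_source E' x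
  have hcx' : F x ∈ c'.source := mem_chart_source E (F x)
  have h1 : ContDiffAt ℝ ∞ (fun z => c (e.symm z)) (e x) :=
    trR he (chart_mem_atlas E' x) (e.map_source hx) (by rw [e.left_inv hx]; exact hcx)
  have h2 : ContDiffAt ℝ ∞ (fun z => e' (c'.symm z)) (c' (F x)) :=
    trR (chart_mem_atlas E (F x)) he' (c'.map_source hcx') (by rw [c'.left_inv hcx']; exact hx')
  have h3 : ContDiffAt ℝ ∞ (fun z => c' (F (c.symm z))) (c (e.symm (e x))) := by
    rw [e.left_inv hx]; exact h.2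
  have h4 := ContDiffAt.comp (g := fun z => c' (F (c.symm z))) (e x) h3 h1
  have h5 : ContDiffAt ℝ ∞ (fun z => e' (c'.symm z))
      (((fun z => c' (F (c.symm z))) ∘ fun z => c (e.symm z)) (e x)) := by
    simp only [Function.comp_apply]
    rw [e.left_inv hx, c.left_inv hcx]
    exact h2
  have h6 := ContDiffAt.comp (e x) h5 h4
  refine h6.congr_of_eventuallyEq ?_
  filter_upwards [ev_symm hx (c.open_source.mem_nhds hcx),
    ev_symm hx (h.1.preimage_mem_nhds (c'.open_source.mem_nhds hcx'))] with z hz hz'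
  simp only [Function.comp_apply]
  rw [c.left_inv hz, c'.left_inv hz']

theorem loc_pb {k : ℕ} {F : X → Y} {e : OpenPartialHomeomorph X E'} (he : e ∈ atlas E' X)
    {e' : OpenPartialHomeomorph Y E} (he' : e' ∈ atlas E Y) (a : Y → E [⋀^Fin k]→L[ℝ] ℝ) {x : X}
    (hF : SmM E' E F x) (hx : x ∈ e.source) (hx' : F x ∈ e'.source) :
    loc e (pb E' F a) (e x) = (loc e' a (e' (F x))).compContinuousLinearMap
      (fderiv ℝ (fun y => e' (F (e.symm y))) (e x)) := by
  have h1 : e.symm (e x) = x := e.left_inv hx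
  have h1' : e'.symm (e' (F x)) = F x := e'.left_inv hx'
  set c := chartAt E' x with hc
  set c' := chartAt E (F x) with hc'
  have hcx : x ∈ c.source := mem_chart_source E' x
  have hcx' : F x ∈ c'.source := mem_chart_source E (F x)
  have hL : loc e (pb E' F a) (e x) = ((a (F x)).compContinuousLinearMap
      (fderiv ℝ (fun y => c' (F (c.symm y))) (c x))).compContinuousLinearMap
      (fderiv ℝ (fun y => c (e.symm y)) (e x)) := by
    rw [loc, h1]; rfl
  have hR : loc e' a (e' (F x)) = (a (F x)).compContinuousLinearMap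
      (fderiv ℝ (fun y => c' (e'.symm y)) (e' (F x))) := by
    rw [loc, h1']
  rw [hL, hR, comp_comp_alt, comp_comp_alt]
  congr 1
  have d1 : DifferentiableAt ℝ (fun y => c' (F (c.symm y))) (c (e.symm (e x))) := by
    rw [h1]; exact hF.2.differentiableAt (by simp)
  have d2 : DifferentiableAt ℝ (fun y => c (e.symm y)) (e x) :=
    (trR he (chart_mem_atlas E' x) (e.map_source hx) (by rw [h1]; exact hcx)).differentiableAt
      (by simp)
  have d3 : DifferentiableAt ℝ (fun y => c' (e'.symm y)) (e' (F (e.symm (e x)))) := by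
    rw [h1]
    exact (trR he' (chart_mem_atlas E (F x)) (e'.map_source hx')
      (by rw [h1']; exact hcx')).differentiableAt (by simp)
  have d4 : DifferentiableAt ℝ (fun y => e' (F (e.symm y))) (e x) :=
    (hF.chart he he' hx hx').differentiableAt (by simp)
  have k1 := fderiv_comp (𝕜 := ℝ) (g := fun y => c' (F (c.symm y))) (f := fun y => c (e.symm y))
    (e x) d1 d2
  have k2 := fderiv_comp (𝕜 := ℝ) (g := fun y => c' (e'.symm y)) (f := fun y => e' (F (e.symm y)))
    (e x) d3 d4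
  rw [h1] at k1 k2
  rw [← k1, ← k2]
  apply Filter.EventuallyEq.fderiv_eq
  filter_upwards [ev_symm hx (c.open_source.mem_nhds hcx),
    ev_symm hx (hF.1.preimage_mem_nhds (e'.open_source.mem_nhds hx'))] with z hz hz'
  simp only [Function.comp_apply]
  rw [c.left_inv hz, e'.left_inv hz']

/-- the local expression of a pullback near a point -/
theorem loc_pb_ev {k : ℕ} {F : X → Y} {e : OpenPartialHomeomorph X E'} (he : e ∈ atlas E' X)
    {e' : OpenPartialHomeomorph Y E} (he' : e' ∈ atlas E Y) (a : Y → E [⋀^Fin k]→L[ℝ] ℝ) {x : X}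
    (hF : ∀ᶠ y in 𝓝 x, SmM E' E F y) (hx : x ∈ e.source) (hx' : F x ∈ e'.source) :
    loc e (pb E' F a) =ᶠ[𝓝 (e x)] fun z => (loc e' a (e' (F (e.symm z)))).compContinuousLinearMap
      (fderiv ℝ (fun y => e' (F (e.symm y))) z) := by
  filter_upwards [ev_symm hx hF, ev_symm hx (e.open_source.mem_nhds hx),
    ev_symm hx (hF.self_of_nhds.1.preimage_mem_nhds (e'.open_source.mem_nhds hx')),
    e.open_target.mem_nhds (e.map_source hx)] with z hz hz1 hz2 hz3
  have := loc_pb he he' a hz hz1 hz2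
  rw [e.right_inv hz3] at this
  exact this

variable [FiniteDimensional ℝ E] [FiniteDimensional ℝ E']

theorem smAt_pb {k : ℕ} {F : X → Y} {a : Y → E [⋀^Fin k]→L[ℝ] ℝ} {x : X}
    (hF : ∀ᶠ y in 𝓝 x, SmM E' E F y) (ha : SmAt a (F x)) : SmAt (pb E' F a) x := by
  have h1 := loc_pb_ev (chart_mem_atlas E' x) (chart_mem_atlas E (F x)) a hF
    (mem_chart_source E' x) (mem_chart_source E (F x))
  refine ContDiffAt.congr_of_eventuallyEq ?_ h1
  have h2 : (chartAt E' x).symm (chartAt E' x x) = x :=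
    (chartAt E' x).left_inv (mem_chart_source E' x)
  refine contDiffAt_pullback hF.self_of_nhds.2 ?_
  rw [h2]
  exact ha

omit [FiniteDimensional ℝ E] [FiniteDimensional ℝ E'] in
theorem dF_pb {k : ℕ} {F : X → Y} {a : Y → E [⋀^Fin k]→L[ℝ] ℝ} {x : X}
    (hF : ∀ᶠ y in 𝓝 x, SmM E' E F y) (ha : SmAt a (F x)) : dF (pb E' F a) x = pb E' F (dF a) x := by
  have h1 := loc_pb_ev (chart_mem_atlas E' x) (chart_mem_atlas E (F x)) a hF
    (mem_chart_source E' x) (mem_chart_source E (F x))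
  have h2 : (chartAt E' x).symm (chartAt E' x x) = x :=
    (chartAt E' x).left_inv (mem_chart_source E' x)
  rw [dF, h1.extDeriv_eq]
  have h4 : DifferentiableAt ℝ (loc (chartAt E (F x)) a)
      ((fun y => chartAt E (F x) (F ((chartAt E' x).symm y))) (chartAt E' x x)) := by
    simp only [h2]; exact ha.diff
  have h3 := extDeriv_pullback (r := ∞) (f := fun y => chartAt E (F x) (F ((chartAt E' x).symm y)))
    h4 hF.self_of_nhds.2 minS
  refine h3.trans ?_
  simp only [h2]
  rfl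

omit [FiniteDimensional ℝ E] [FiniteDimensional ℝ E'] in
theorem pb_comp {E'' : Type*} [NormedAddCommGroup E''] [NormedSpace ℝ E''] {Z : Type*}
    [TopologicalSpace Z] [ChartedSpace E'' Z] [IsManifold 𝓘(ℝ, E'') ∞ Z] {k : ℕ} {F : X → Y}
    {G : Y → Z} (a : Z → E'' [⋀^Fin k]→L[ℝ] ℝ) {x : X} (hF : SmM E' E F x)
    (hG : SmM E E'' G (F x)) : pb E' F (pb E G a) x = pb E' (fun y => G (F y)) a x := by
  have hxs : x ∈ (chartAt E' x).source := mem_chart_source E' x
  have h2 : (chartAt E' x).symm (chartAt E' x x) = x := (chartAt E' x).left_inv hxs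
  rw [pb, pb, pb, comp_comp_alt]
  congr 1
  have d1 : DifferentiableAt ℝ (fun y => chartAt E'' (G (F x)) (G ((chartAt E (F x)).symm y)))
      (chartAt E (F x) (F ((chartAt E' x).symm (chartAt E' x x)))) := by
    rw [h2]
    exact hG.2.differentiableAt (by simp)
  have d2 : DifferentiableAt ℝ (fun y => chartAt E (F x) (F ((chartAt E' x).symm y)))
      (chartAt E' x x) := hF.2.differentiableAt (by simp)
  have k1 := fderiv_comp (𝕜 := ℝ)
    (g := fun y => chartAt E'' (G (F x)) (G ((chartAt E (F x)).symm y)))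
    (f := fun y => chartAt E (F x) (F ((chartAt E' x).symm y))) (chartAt E' x x) d1 d2
  rw [h2] at k1
  rw [← k1]
  apply Filter.EventuallyEq.fderiv_eq
  filter_upwards [ev_symm hxs (hF.1.preimage_mem_nhds
      ((chartAt E (F x)).open_source.mem_nhds (mem_chart_source E (F x))))] with z hz1
  simp only [Function.comp_apply]
  rw [(chartAt E (F x)).left_inv hz1]

omit [FiniteDimensional ℝ E] [FiniteDimensional ℝ E'] in
theorem SmM.comp {E'' : Type*} [NormedAddCommGroup E''] [NormedSpace ℝ E''] {Z : Type*}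
    [TopologicalSpace Z] [ChartedSpace E'' Z] {F : X → Y}
    {G : Y → Z} {x : X} (hF : SmM E' E F x) (hG : SmM E E'' G (F x)) :
    SmM E' E'' (fun y => G (F y)) x := by
  have hxs : x ∈ (chartAt E' x).source := mem_chart_source E' x
  have h2 : (chartAt E' x).symm (chartAt E' x x) = x := (chartAt E' x).left_inv hxs
  refine ⟨hG.1.comp hF.1, ?_⟩
  have d1 : ContDiffAt ℝ ∞ (fun y => chartAt E'' (G (F x)) (G ((chartAt E (F x)).symm y)))
      (chartAt E (F x) (F ((chartAt E' x).symm (chartAt E' x x)))) := by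
    rw [h2]
    exact hG.2
  refine (ContDiffAt.comp (g := fun y => chartAt E'' (G (F x)) (G ((chartAt E (F x)).symm y)))
    (chartAt E' x x) d1 hF.2).congr_of_eventuallyEq ?_
  filter_upwards [ev_symm hxs (hF.1.preimage_mem_nhds
      ((chartAt E (F x)).open_source.mem_nhds (mem_chart_source E (F x))))] with z hz1
  simp only [Function.comp_apply]
  rw [(chartAt E (F x)).left_inv hz1]

omit [FiniteDimensional ℝ E] [FiniteDimensional ℝ E'] [IsManifold 𝓘(ℝ, E') ∞ X]
  [IsManifold 𝓘(ℝ, E) ∞ Y] in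
theorem pb_add {k : ℕ} (F : X → Y) (a b : Y → E [⋀^Fin k]→L[ℝ] ℝ) :
    pb E' F (a + b) = pb E' F a + pb E' F b := rfl

omit [FiniteDimensional ℝ E] [FiniteDimensional ℝ E'] [IsManifold 𝓘(ℝ, E') ∞ X]
  [IsManifold 𝓘(ℝ, E) ∞ Y] in
theorem pb_smul {k : ℕ} (F : X → Y) (c : ℝ) (a : Y → E [⋀^Fin k]→L[ℝ] ℝ) :
    pb E' F (c • a) = c • pb E' F a := rfl

omit [FiniteDimensional ℝ E] [FiniteDimensional ℝ E'] [IsManifold 𝓘(ℝ, E') ∞ X]
  [IsManifold 𝓘(ℝ, E) ∞ Y] in
theorem pb_sub {k : ℕ} (F : X → Y) (a b : Y → E [⋀^Fin k]→L[ℝ] ℝ) :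
    pb E' F (a - b) = pb E' F a - pb E' F b := rfl

omit [FiniteDimensional ℝ E] [FiniteDimensional ℝ E'] [IsManifold 𝓘(ℝ, E') ∞ X]
  [IsManifold 𝓘(ℝ, E) ∞ Y] in
theorem pb_fsmul {k : ℕ} (F : X → Y) (r : Y → ℝ) (a : Y → E [⋀^Fin k]→L[ℝ] ℝ) :
    pb E' F (fun y => r y • a y) = fun x => r (F x) • pb E' F a x := rfl

omit [FiniteDimensional ℝ E] [FiniteDimensional ℝ E'] [IsManifold 𝓘(ℝ, E') ∞ X]
  [IsManifold 𝓘(ℝ, E) ∞ Y] in
theorem pb_eq_zero {k : ℕ} {F : X → Y} {a : Y → E [⋀^Fin k]→L[ℝ] ℝ} {x : X} (h : a (F x) = 0) :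
    pb E' F a x = 0 := by
  rw [pb, h]; rfl

end pb

section int

variable {E : Type*} [NormedAddCommGroup E] [NormedSpace ℝ E] [FiniteDimensional ℝ E]
variable {M : Type*} [TopologicalSpace M] [ChartedSpace E M] [IsManifold 𝓘(ℝ, E) ∞ M]

omit [FiniteDimensional ℝ E] in
theorem pull_eq_loc {k : ℕ} {e : OpenPartialHomeomorph M E} (he : e ∈ atlas E M)
    (a : M → E [⋀^Fin k]→L[ℝ] ℝ) {z : E} (hz : z ∈ e.target) :
    pull e.symm (show Form E ℝ k M from a) z = loc e a z := by
  have h1 : MDifferentiableAt 𝓘(ℝ, E) 𝓘(ℝ, E) e.symm z := mdiffAt_symm he hz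
  have h2 : mfd e.symm z = fderiv ℝ (fun y => chartAt E (e.symm z) (e.symm y)) z := by
    have h3 := h1.mfderiv
    simp only [writtenInExtChartAt, extChartAt, mfld_simps, fderivWithin_univ] at h3
    exact h3
  rw [pull_eq, h2]
  rfl

theorem contDiffAt_loc {k : ℕ} {a : M → E [⋀^Fin k]→L[ℝ] ℝ} {e : OpenPartialHomeomorph M E}
    (he : e ∈ atlas E M) {z : E} (hz : z ∈ e.target) (ha : SmAt a (e.symm z)) :
    ContDiffAt ℝ ∞ (loc e a) z := by
  have := (smAt_iff he (e.map_target hz)).1 ha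
  rwa [e.right_inv hz] at this

theorem cForm_of_sm {k : ℕ} {a : M → E [⋀^Fin k]→L[ℝ] ℝ} (ha : ∀ y, SmAt a y) :
    CForm 1 (show Form E ℝ k M from a) := by
  intro e he z hz
  refine ContDiffWithinAt.congr_of_eventuallyEq
    (((contDiffAt_loc he hz (ha _)).of_le (by simp)).contDiffWithinAt) ?_ (pull_eq_loc he a hz)
  filter_upwards [self_mem_nhdsWithin] with y hy
  exact pull_eq_loc he a hy

theorem isExt_dF {k : ℕ} {a : M → E [⋀^Fin k]→L[ℝ] ℝ} (ha : ∀ y, SmAt a y) :
    IsExt (show Form E ℝ k M from a) (show Form E ℝ (k + 1) M from dF a) := by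
  intro e he z hz
  have h1 : pull e.symm (show Form E ℝ k M from a) =ᶠ[𝓝 z] loc e a := by
    filter_upwards [e.open_target.mem_nhds hz] with w hw using pull_eq_loc he a hw
  rw [h1.extDeriv_eq, pull_eq_loc he _ hz, loc_dF he hz (ha _)]

variable [PosAtlas E M] [T2Space M] [CompactSpace M] [MeasurableSpace E] [BorelSpace E]
  (μ : Measure E) {n : ℕ}

/-- The integral of a form of top degree on a compact oriented manifold. -/
def intG (b : Basis (Fin n) ℝ E) (a : M → E [⋀^Fin n]→L[ℝ] ℝ) : ℝ :=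
  letI : MeasurableSpace M := borel M
  haveI : BorelSpace M := ⟨rfl⟩
  intForm μ (exists_pou (E := E) (M := M)).some b (show Form E ℝ n M from a)

variable [μ.IsAddHaarMeasure]

theorem intG_add (b : Basis (Fin n) ℝ E) {a a' : M → E [⋀^Fin n]→L[ℝ] ℝ} (ha : ∀ y, SmAt a y)
    (ha' : ∀ y, SmAt a' y) : intG μ b (a + a') = intG μ b a + intG μ b a' := by
  letI : MeasurableSpace M := borel M
  haveI : BorelSpace M := ⟨rfl⟩
  set P : Pou E M := (exists_pou (E := E) (M := M)).some with hP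
  have h1 : ∀ {c : M → E [⋀^Fin n]→L[ℝ] ℝ}, (∀ y, SmAt c y) →
      Integrable (P.quo fun e z => cf b e (show Form E ℝ n M from c) z) (P.meas μ) := by
    intro c hc
    exact P.integrable_quo μ (isDens_cf b _) ((cForm_of_sm hc).contForm.dcont b) isCompact_univ
      (fun e he z hz h => absurd (mem_univ _) h)
  exact P.integ_add μ (h1 ha) (h1 ha')

theorem intG_smul (b : Basis (Fin n) ℝ E) (c : ℝ) (a : M → E [⋀^Fin n]→L[ℝ] ℝ) :
    intG μ b (c • a) = c * intG μ b a := by
  letI : MeasurableSpace M := borel M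
  haveI : BorelSpace M := ⟨rfl⟩
  exact (exists_pou (E := E) (M := M)).some.integ_smul μ c
    (fun e z => cf b e (show Form E ℝ n M from a) z)

theorem intG_zero (b : Basis (Fin n) ℝ E) : intG μ b (0 : M → E [⋀^Fin n]→L[ℝ] ℝ) = 0 := by
  have := intG_smul μ b 0 (0 : M → E [⋀^Fin n]→L[ℝ] ℝ)
  simpa using this

theorem intG_sub (b : Basis (Fin n) ℝ E) {a a' : M → E [⋀^Fin n]→L[ℝ] ℝ} (ha : ∀ y, SmAt a y)
    (ha' : ∀ y, SmAt a' y) : intG μ b (a - a') = intG μ b a - intG μ b a' := by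
  have h : a - a' = a + (-1 : ℝ) • a' := by simp [sub_eq_add_neg]
  rw [h, intG_add μ b ha fun y => (ha' y).smul _, intG_smul]; ring

/-- Stokes -/
theorem intG_dF (b : Basis (Fin (n + 1)) ℝ E) {a : M → E [⋀^Fin n]→L[ℝ] ℝ} (ha : ∀ y, SmAt a y) :
    intG μ b (dF a) = 0 := by
  letI : MeasurableSpace M := borel M
  haveI : BorelSpace M := ⟨rfl⟩
  exact stokes μ _ b (cForm_of_sm ha) (isExt_dF ha) isCompact_univ
    (fun x h => absurd (mem_univ _) h)

/-- forms that vanish outside of a chart -/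
theorem intG_chart (b : Basis (Fin n) ℝ E) {a : M → E [⋀^Fin n]→L[ℝ] ℝ} (ha : ∀ y, SmAt a y)
    {e : OpenPartialHomeomorph M E} (he : e ∈ atlas E M) (h0 : ∀ y ∉ e.source, a y = 0) :
    intG μ b a = ∫ z in e.target, loc e a z b ∂μ := by
  letI : MeasurableSpace M := borel M
  haveI : BorelSpace M := ⟨rfl⟩
  set P : Pou E M := (exists_pou (E := E) (M := M)).some with hP
  have hs : SuppIn e.source (show Form E ℝ n M from a) := h0
  have h1 := P.integ_chart μ he (isDens_cf b (show Form E ℝ n M from a))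
    (P.continuous_quo (isDens_cf b _) ((cForm_of_sm ha).contForm.dcont b)).aestronglyMeasurable
    (hs.dsupp b)
  refine h1.trans (setIntegral_congr_fun e.open_target.measurableSet fun z hz => ?_)
  simp only [cf]
  rw [pull_eq_loc he a hz]

end int

section cx

instance instReal (d : ℕ) (M : Type*) [TopologicalSpace M] [ChartedSpace (Cm d) M]
    [IsManifold 𝓘(ℂ, Cm d) ω M] : IsManifold 𝓘(ℝ, Cm d) ∞ M := isManifold_real

instance instPos (d : ℕ) (M : Type*) [TopologicalSpace M] [ChartedSpace (Cm d) M]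
    [IsManifold 𝓘(ℂ, Cm d) ω M] : PosAtlas (Cm d) M := posAtlas_complex

/-- the standard real basis of `ℂ^d` -/
def rb (d : ℕ) : Basis (Fin (d * 2)) ℝ (Cm d) :=
  ((Pi.basis fun _ : Fin d => Complex.basisOneI).reindex
    ((Equiv.sigmaEquivProd (Fin d) (Fin 2)).trans finProdFinEquiv) :)

/-- the basis of `ℂ²` -/
def b2 : Basis (Fin 4) ℝ (Cm 2) := rb 2

/-- the basis of `ℂ³` -/
def b3 : Basis (Fin 6) ℝ (Cm 3) := rb 3

/-- the basis of `ℂ⁴` -/
def b4 : Basis (Fin 8) ℝ (Cm 4) := rb 4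

/-- real forms on a complex manifold -/
abbrev Fm (d k : ℕ) (M : Type*) : Type _ := M → Cm d [⋀^Fin k]→L[ℝ] ℝ

/-- holomorphic maps of manifolds -/
def HolM (d' d : ℕ) {X Y : Type*} [TopologicalSpace X] [ChartedSpace (Cm d') X]
    [TopologicalSpace Y] [ChartedSpace (Cm d) Y] (F : X → Y) : Prop :=
  Continuous F ∧ ∀ x (e : Chart d' X) (e' : Chart d Y), At e x → At e' (F x) →
    AnalyticAt ℂ (fun z => e' (F (e.symm z))) (e x)

theorem HolM.smM {d' d : ℕ} {X Y : Type*} [TopologicalSpace X] [ChartedSpace (Cm d') X]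
    [TopologicalSpace Y] [ChartedSpace (Cm d) Y] {F : X → Y} (h : HolM d' d F) (x : X) :
    SmM (Cm d') (Cm d) F x :=
  ⟨h.1.continuousAt, ((h.2 x _ _ ⟨chart_mem_atlas _ _, mem_chart_source _ _⟩
    ⟨chart_mem_atlas _ _, mem_chart_source _ _⟩).contDiffAt.restrict_scalars ℝ).of_le le_top⟩

/-- The integral over the compact surface `S` of the pull back of a `4`-form. -/
def int2 {d : ℕ} {S Y : Type*} [TopologicalSpace S] [T2Space S] [CompactSpace S]
    [ChartedSpace (Cm 2) S] [IsManifold 𝓘(ℂ, Cm 2) ω S] [TopologicalSpace Y]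
    [ChartedSpace (Cm d) Y] (f : S → Y) (β : Fm d 4 Y) : ℝ :=
  intG volume b2 (pb (Cm 2) f β)

end cx

end Vale.Agent.P277Z.Tr
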