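import Vale.Agent.P277Z.Tr.Cpl0

/-!
# P277Z, block TR: the lemma of Poincare with compact supports
-/

set_option linter.unusedSectionVars false
set_option maxSynthPendingDepth 3

open scoped ContDiff Topology
open Vale.Agent.P267.H175 Set Filter MeasureTheory Module Metric
open Vale.Agent.P267.H928.Int ContinuousAlternatingMap Vale.Agent.P267.H68 Vale.Agent.P277.H60

noncomputable section

namespace Vale.Agent.P277Z.Tr

namespace Cpl

variable {E : Type} [NormedAddCommGroup E] [NormedSpace ℝ E] [FiniteDimensional ℝ E] {k : ℕ}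
  {V K : Set E} {a : E → E [⋀^Fin (k + 1)]→L[ℝ] ℝ} {p : E} {ε : ℝ}
  {ι : Type} [Fintype ι] [DecidableEq ι] (b : Basis ι ℝ E)

/-- the coordinates -/
def co (j : ι) : E →L[ℝ] ℝ := LinearMap.toContinuousLinearMap (b.coord j)

theorem co_basis (j i : ι) : co b j (b i) = if i = j then 1 else 0 := by
  simp [co, Finsupp.single_apply]

/-- the boxes -/
def box (p : E) (ε : ℝ) (s : Finset ι) : Set E :=
  {x | ∀ j, |co b j (x - p)| ≤ if j ∈ s then 2 * ε else ε}

theorem box_sub (hε : 0 < ε) (s : Finset ι) : box b p ε s ⊆ box b p ε Finset.univ :=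
  fun x hx j => (hx j).trans (by
    rw [if_pos (Finset.mem_univ j)]
    split_ifs <;> linarith)

theorem swp_box (hε : 0 < ε) {s : Finset ι} {i : ι} (hi : i ∉ s) :
    swp (co b i) (b i) p ε (box b p ε s) ⊆ box b p ε (insert i s) := by
  rintro x ⟨h1, t, ht, h2⟩ j
  have h3 := h2 j
  rw [sub_right_comm, map_sub, map_smul, map_smul, co_basis] at h3
  rcases eq_or_ne i j with rfl | h
  · rw [if_pos rfl, if_neg hi, smul_eq_mul, smul_eq_mul] at h3
    rw [if_pos (Finset.mem_insert_self _ _), abs_le]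
    exact ⟨by nlinarith [(abs_le.1 h3).1, mul_nonneg ht.1 hε.le], h1⟩
  · simpa [h, h.symm] using h3

/-- step (1) in coordinates -/
theorem shrink (hO : IsOpen V) (hV : Convex ℝ V) (hK : IsCompact K) (hKV : K ⊆ V) (hp : p ∈ V)
    (ha : ContDiff ℝ ∞ a) (h0 : ∀ x ∉ K, a x = 0) (hd : ∀ x, extDeriv a x = 0) :
    ∃ ε T : ℝ, 0 < ε ∧ 1 ≤ T ∧ IsCompact (box b p ε Finset.univ) ∧ box b p ε Finset.univ ⊆ V ∧
      (Prim V fun x => a x - T ^ (k + 1) • a (p + T • (x - p))) ∧
      ∀ x ∉ box b p ε ∅, T ^ (k + 1) • a (p + T • (x - p)) = 0 := by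
  let h : E ≃ₜ (ι → ℝ) := (Homeomorph.subRight p).trans b.equivFunL.toHomeomorph
  have e : ∀ x j, h x j = co b j (x - p) := fun _ _ => rfl
  obtain ⟨r, hr, h1⟩ := nhds_basis_closedBall.mem_iff.1 ((h.isOpenMap V hO).mem_nhds
    (show (0 : ι → ℝ) ∈ h '' V from ⟨p, hp, funext fun j => by simp [e]⟩))
  have h2 : box b p (r / 2) Finset.univ = h ⁻¹' closedBall 0 r := by
    ext x
    simp [box, pi_norm_le_iff_of_nonneg hr.le, e, mul_div_cancel₀, -map_sub]
  obtain ⟨C, hC⟩ := (hK.image h.continuous).isBounded.exists_norm_le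
  have h3 : 1 ≤ max 1 (C / (r / 2)) := le_max_left _ _
  refine ⟨r / 2, _, half_pos hr, h3, h2 ▸ h.isCompact_preimage.2 (isCompact_closedBall _ _),
    h2 ▸ (preimage_mono h1).trans (h.preimage_image V).subset, homoth hV hK hKV hp ha h0 hd h3,
    fun x hx => ?_⟩
  rw [h0 _ fun h4 => hx fun j => ?_, smul_zero]
  have h5 := (norm_le_pi_norm _ j).trans (hC _ ⟨_, h4, rfl⟩)
  have h6 := (div_le_iff₀ (half_pos hr)).1 (le_max_right 1 (C / (r / 2)))
  rw [e, add_sub_cancel_left, map_smul, norm_smul, Real.norm_of_nonneg (zero_le_one.trans h3),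
    Real.norm_eq_abs] at h5
  rw [if_neg (Finset.notMem_empty j)]
  exact le_of_mul_le_mul_left (h5.trans h6) (one_pos.trans_le h3)

/-- step (2) in coordinates -/
theorem box_step (hε : 0 < ε) (hK : IsCompact (box b p ε Finset.univ))
    (hKV : box b p ε Finset.univ ⊆ V) {s : Finset ι} {i : ι} (hi : i ∉ s) (ha : ContDiff ℝ ∞ a)
    (h0 : ∀ x ∉ box b p ε s, a x = 0) (hd : ∀ x, extDeriv a x = 0) :
    (Prim V fun x => a x - stp (co b i) (b i) p ε a x) ∧
      ∀ x ∉ box b p ε (insert i s), stp (co b i) (b i) p ε a x = 0 :=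
  ⟨step (by rw [co_basis, if_pos rfl]) hε (fun x hx => (hx i).trans_eq (if_neg hi)) hK hKV
    ((swp_box b hε hi).trans (box_sub b hε _)) ha h0 hd,
    fun _ hx => stp_zero hε h0 fun e => hx (swp_box b hε hi e)⟩

/-- the form vanishes on the kernel of `l` -/
def Kil (l : E →L[ℝ] ℝ) (a : E → E [⋀^Fin (k + 1)]→L[ℝ] ℝ) : Prop :=
  ∀ x (v : Fin (k + 1) → E), (∀ m, l (v m) = 0) → a x v = 0

theorem kil_self (l : E →L[ℝ] ℝ) (e : E) : Kil l (stp l e p ε a) := fun x v hv => by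
  simp [stp, wedge1_apply, hv]

theorem kil_stp {l l' : E →L[ℝ] ℝ} {e : E} (he : l' e = 0) (ha : ContDiff ℝ ∞ a) (h : Kil l' a) :
    Kil l' (stp l e p ε a) := fun x v hv => by
  rw [stp, ContinuousAlternatingMap.smul_apply, wedge1_apply,
    Finset.sum_eq_zero fun m _ => ?_, smul_zero]
  rw [tI_apply _ ha, time_zero fun t _ => ?_, smul_zero, smul_zero]
  refine h _ _ (Fin.forall_fin_succ.2 ⟨?_, fun _ => hv _⟩)
  rw [Matrix.cons_val_zero, map_smul, he, smul_zero]

theorem all_steps (hε : 0 < ε) (hK : IsCompact (box b p ε Finset.univ))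
    (hKV : box b p ε Finset.univ ⊆ V) (ha : ContDiff ℝ ∞ a) (h0 : ∀ x ∉ box b p ε ∅, a x = 0)
    (hd : ∀ x, extDeriv a x = 0) (s : Finset ι) : ∃ a', (Prim V fun x => a x - a' x) ∧
      (∀ x ∉ box b p ε s, a' x = 0) ∧ ∀ j ∈ s, Kil (co b j) a' := by
  induction s using Finset.induction_on with
  | empty => exact ⟨a, by simpa only [sub_self] using prim_zero, h0, by simp⟩
  | insert i s hi ih =>
    obtain ⟨a', h1, h2, h3⟩ := ih
    obtain ⟨h4, h5⟩ := rest h1 ha hd
    obtain ⟨h6, h7⟩ := box_step b hε hK hKV hi h4 h2 h5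
    refine ⟨_, by simpa only [sub_add_sub_cancel] using prim_add h1 h6, h7,
      Finset.forall_mem_insert _ _ _ |>.2 ⟨kil_self _ _, fun j hj => kil_stp ?_ h4 (h3 j hj)⟩⟩
    rw [co_basis, if_neg fun e : i = j => hi (e ▸ hj)]

theorem eq_zero (hk : k + 1 < Fintype.card ι) (h : ∀ j, Kil (co b j) a) (x : E) : a x = 0 := by
  refine ContinuousAlternatingMap.toAlternatingMap_injective (b.ext_alternating fun v _ => ?_)
  obtain ⟨j, hj⟩ : ∃ j, ∀ m, v m ≠ j := by
    by_contra! h1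
    exact (Fintype.card_le_of_surjective v h1).not_gt (by rwa [Fintype.card_fin])
  exact h j x _ fun m => by rw [co_basis, if_neg (hj m)]

end Cpl

open Cpl

/-- **CPL** -/
theorem cpl : CPL := by
  intro E _ _ _ V K k a hO hV hK hKV ha h0 hd hk
  rcases K.eq_empty_or_nonempty with rfl | ⟨p, hp⟩
  · rw [funext fun x => h0 x (notMem_empty x)]
    exact prim_zero
  obtain ⟨ε, T, hε, -, h1, h2, h3, h4⟩ := shrink (finBasis ℝ E) hO hV hK hKV (hKV hp) ha h0 hd
  obtain ⟨h5, h6⟩ := rest h3 ha hd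
  obtain ⟨a', h7, -, h8⟩ := all_steps _ hε h1 h2 h5 h4 h6 Finset.univ
  refine prim_of_sub h3 (prim_of_sub h7 ?_)
  rw [funext (eq_zero _ (by rwa [Fintype.card_fin]) fun j => h8 j (Finset.mem_univ j))]
  exact prim_zero

end Vale.Agent.P277Z.Tr
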