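import Vale.Agent.P277Z.Tr.Alg
import Vale.Agent.P277Z.Tr.Cpl
import Vale.Agent.P277Z.Tr.Cpt
import Vale.Agent.P267.H368.Cover

/-!
# P277Z, block TR: maps of degree one are injective in cohomology
-/

set_option linter.all false
set_option maxSynthPendingDepth 3

open scoped Manifold ContDiff Topology
open Vale.Agent.P267.H175 Set Filter MeasureTheory Module
open Vale.Agent.P267.H928.Int ContinuousAlternatingMap
open Vale.Agent.P272.K (Cm Chart At)

noncomputable section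

namespace Vale.Agent.P277Z.Tr

section ext

variable {E : Type} [NormedAddCommGroup E] [NormedSpace ℝ E] [FiniteDimensional ℝ E]
variable {X : Type*} [TopologicalSpace X] [ChartedSpace E X] [IsManifold 𝓘(ℝ, E) ∞ X] {k : ℕ}

theorem dF_zero_of {a : X → E [⋀^Fin k]→L[ℝ] ℝ} {x : X} (h : ∀ᶠ y in 𝓝 x, a y = 0) :
    dF a x = 0 := by
  rw [dF_congr (b := 0) h, dF, loc_zero]
  exact extDeriv_zero' _

theorem smAt_of_zero {a : X → E [⋀^Fin k]→L[ℝ] ℝ} {x : X} (h : ∀ᶠ y in 𝓝 x, a y = 0) :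
    SmAt a x := (smAt_zero x).congr h

theorem SmAt.sub' {a b : X → E [⋀^Fin k]→L[ℝ] ℝ} {x : X} (ha : SmAt a x) (hb : SmAt b x) :
    SmAt (a - b) x := by
  have h : a - b = a + (-1 : ℝ) • b := by simp [sub_eq_add_neg]
  rw [h]; exact ha.add (hb.smul _)

theorem dF_sub {a b : X → E [⋀^Fin k]→L[ℝ] ℝ} {x : X} (ha : SmAt a x) (hb : SmAt b x) :
    dF (a - b) x = dF a x - dF b x := by
  have h : a - b = a + (-1 : ℝ) • b := by simp [sub_eq_add_neg]
  rw [h, dF_add ha (hb.smul _), dF_smul]; simp [sub_eq_add_neg]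

/-- a flat form, extended by zero -/
def ext0 (e : OpenPartialHomeomorph X E) (g : E → E [⋀^Fin k]→L[ℝ] ℝ) :
    X → E [⋀^Fin k]→L[ℝ] ℝ := e.source.indicator (unloc e g)

variable {e : OpenPartialHomeomorph X E} {g : E → E [⋀^Fin k]→L[ℝ] ℝ} {K : Set E}

theorem loc_ext0 (he : e ∈ atlas E X) {z : E} (hz : z ∈ e.target) : loc e (ext0 e g) z = g z := by
  rw [← loc_unloc he g hz, loc, loc, ext0, indicator_of_mem (e.map_target hz)]

theorem ext0_zero (h0 : ∀ z ∉ K, g z = 0) {x : X} (hx : x ∉ e.symm '' K) : ext0 e g x = 0 := by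
  by_cases h : x ∈ e.source
  · rw [ext0, indicator_of_mem h, unloc, h0 _ fun hk => hx ⟨_, hk, e.left_inv h⟩]; rfl
  · exact indicator_of_notMem h _

theorem isCompact_symm (hK : IsCompact K) (hKe : K ⊆ e.target) : IsCompact (e.symm '' K) :=
  hK.image_of_continuousOn (e.continuousOn_symm.mono hKe)

theorem loc_ext0_ev (he : e ∈ atlas E X) {x : X} (hx : x ∈ e.source) :
    loc e (ext0 e g) =ᶠ[𝓝 (e x)] g := by
  filter_upwards [e.open_target.mem_nhds (e.map_source hx)] with z hz using loc_ext0 he hz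

theorem smAt_ext0 [T2Space X] (he : e ∈ atlas E X) (hg : ContDiff ℝ ∞ g) (hK : IsCompact K)
    (hKe : K ⊆ e.target) (h0 : ∀ z ∉ K, g z = 0) (x : X) : SmAt (ext0 e g) x := by
  by_cases h : x ∈ e.source
  · rw [smAt_iff he h]
    exact hg.contDiffAt.congr_of_eventuallyEq (loc_ext0_ev he h)
  · refine smAt_of_zero ?_
    have : x ∉ e.symm '' K := fun ⟨z, hz, hx⟩ => h (hx ▸ e.map_target (hKe hz))
    filter_upwards [(isCompact_symm hK hKe).isClosed.isOpen_compl.mem_nhds this] with y hy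
      using ext0_zero h0 hy

theorem loc_dF_ext0 [T2Space X] (he : e ∈ atlas E X) (hg : ContDiff ℝ ∞ g) (hK : IsCompact K)
    (hKe : K ⊆ e.target) (h0 : ∀ z ∉ K, g z = 0) {x : X} (hx : x ∈ e.source) :
    loc e (dF (ext0 e g)) (e x) = extDeriv g (e x) := by
  rw [loc_dF he (e.map_source hx) (smAt_ext0 he hg hK hKe h0 _), (loc_ext0_ev he hx).extDeriv_eq]

/-- a form read in a chart, extended by zero -/
def fl (e : OpenPartialHomeomorph X E) (a : X → E [⋀^Fin k]→L[ℝ] ℝ) :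
    E → E [⋀^Fin k]→L[ℝ] ℝ := e.target.indicator (loc e a)

variable {a : X → E [⋀^Fin k]→L[ℝ] ℝ} {L : Set X}

theorem fl_zero (h0 : ∀ x ∉ L, a x = 0) {z : E} (hz : z ∉ e '' L) : fl e a z = 0 := by
  by_cases h : z ∈ e.target
  · rw [fl, indicator_of_mem h, loc, h0 _ fun hk => hz ⟨_, hk, e.right_inv h⟩]; rfl
  · exact indicator_of_notMem h _

theorem fl_ev {z : E} (hz : z ∈ e.target) : fl e a =ᶠ[𝓝 z] loc e a := by
  filter_upwards [e.open_target.mem_nhds hz] with w hw using indicator_of_mem hw _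

theorem fl_ev0 (hL : IsCompact L) (hLe : L ⊆ e.source) (h0 : ∀ x ∉ L, a x = 0) {z : E}
    (hz : z ∉ e.target) : fl e a =ᶠ[𝓝 z] 0 := by
  have : z ∉ e '' L := fun ⟨x, hx, h⟩ => hz (h ▸ e.map_source (hLe hx))
  filter_upwards [(hL.image_of_continuousOn
    (e.continuousOn.mono hLe)).isClosed.isOpen_compl.mem_nhds this] with y hy using fl_zero h0 hy

theorem contDiff_fl (he : e ∈ atlas E X) (ha : ∀ x, SmAt a x) (hL : IsCompact L)
    (hLe : L ⊆ e.source) (h0 : ∀ x ∉ L, a x = 0) : ContDiff ℝ ∞ (fl e a) := by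
  refine contDiff_iff_contDiffAt.2 fun z => ?_
  by_cases h : z ∈ e.target
  · exact (contDiffAt_loc he h (ha _)).congr_of_eventuallyEq (fl_ev h)
  · exact contDiffAt_const.congr_of_eventuallyEq (fl_ev0 hL hLe h0 h)

theorem prim_of [T2Space X] {a : X → E [⋀^Fin (k + 1)]→L[ℝ] ℝ} (he : e ∈ atlas E X) {V : Set X}
    (hV : V ⊆ e.source) (h0 : ∀ x ∉ V, a x = 0) (h : Prim (e '' V) (fl e a)) :
    ∃ b : X → E [⋀^Fin k]→L[ℝ] ℝ, (∀ x, SmAt b x) ∧
      (∃ L, IsClosed L ∧ L ⊆ V ∧ ∀ x ∉ L, b x = 0) ∧ ∀ x, dF b x = a x := by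
  obtain ⟨β, K, h1, h2, h3, h4, h5⟩ := h
  have hKe : K ⊆ e.target := fun z hz => by
    obtain ⟨x, hx, rfl⟩ := h3 hz
    exact e.map_source (hV hx)
  have hc := (isCompact_symm h2 hKe).isClosed
  have hs : e.symm '' K ⊆ V := by
    rintro _ ⟨z, hz, rfl⟩
    obtain ⟨x, hx, rfl⟩ := h3 hz
    rwa [e.left_inv (hV hx)]
  refine ⟨ext0 e β, smAt_ext0 he h1 h2 hKe h4, ⟨_, hc, hs, fun x => ext0_zero h4⟩, fun x => ?_⟩
  by_cases hx : x ∈ e.source
  · refine loc_inj he hx ?_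
    rw [loc_dF_ext0 he h1 h2 hKe h4 hx, h5, fl, indicator_of_mem (e.map_source hx)]
  · rw [h0 x fun h => hx (hV h)]
    refine dF_zero_of ?_
    filter_upwards [hc.isOpen_compl.mem_nhds fun h => hx (hV (hs h))] with y hy
      using ext0_zero h4 hy

variable (E X k) in
/-- smooth forms -/
def Sm : AddSubgroup (X → E [⋀^Fin k]→L[ℝ] ℝ) where
  carrier := {a | ∀ x, SmAt a x}
  add_mem' ha hb x := (ha x).add (hb x)
  zero_mem' := smAt_zero
  neg_mem' {a} ha x := by simpa using (ha x).smul (-1)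

/-- the complex of the smooth forms on `X` with supports in `Y` -/
def cx {Y : Type*} [TopologicalSpace Y] {ι : Type} [Fintype ι] (U : ι → Set Y) (F : X → Y)
    (hF : Continuous F) (ρ : ι → Y → ℝ)
    (h1 : ∀ i, ContMDiff 𝓘(ℝ, E) 𝓘(ℝ, ℝ) ∞ fun x => ρ i (F x)) (h2 : ∀ y, ∑ i, ρ i y = 1)
    (h3 : ∀ i, tsupport (ρ i) ⊆ U i) : Cx U fun k => Sm E X k where
  d := AddMonoidHom.mk' (fun a => ⟨dF a.1, fun x =>
    smAt_dF isOpen_univ (fun y _ => a.2 y) (mem_univ x)⟩) fun a b =>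
      Subtype.ext (funext fun x => dF_add (a.2 x) (b.2 x))
  dd a := Subtype.ext (funext fun x => dF_dF isOpen_univ (fun y _ => a.2 y) (mem_univ x))
  S k W :=
    { carrier := {a | ∃ L, IsClosed L ∧ L ⊆ W ∧ ∀ x, F x ∉ L → a.1 x = 0}
      add_mem' := fun {a b} ⟨L, a1, a2, a3⟩ ⟨L', b1, b2, b3⟩ =>
        ⟨L ∪ L', a1.union b1, union_subset a2 b2, fun x hx => by
          change a.1 x + b.1 x = 0
          rw [a3 x fun h => hx (Or.inl h), b3 x fun h => hx (Or.inr h), add_zero]⟩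
      zero_mem' := ⟨∅, isClosed_empty, empty_subset _, fun _ _ => rfl⟩
      neg_mem' := fun {a} ⟨L, a1, a2, a3⟩ => ⟨L, a1, a2, fun x hx => by
        change - a.1 x = 0
        rw [a3 x hx, neg_zero]⟩ }
  mono k A B h a := fun ⟨L, a1, a2, a3⟩ => ⟨L, a1, a2.trans h, a3⟩
  top k a := ⟨univ, isClosed_univ, Subset.rfl, fun x hx => absurd trivial hx⟩
  d_mem := fun {k W a} ⟨L, a1, a2, a3⟩ => ⟨L, a1, a2, fun x hx => dF_zero_of (by
    filter_upwards [(a1.preimage hF).isOpen_compl.mem_nhds hx] with y hy using a3 y hy)⟩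
  r i := AddMonoidHom.mk' (fun a => ⟨fun x => ρ i (F x) • a.1 x, fun x =>
    smAt_fsmul (h1 i x) (a.2 x)⟩) fun a b => Subtype.ext (funext fun x => smul_add _ _ _)
  r_sum a := Subtype.ext (funext fun x => by
    rw [AddSubgroup.val_finset_sum, Finset.sum_apply]
    change ∑ i, ρ i (F x) • a.1 x = _
    rw [← Finset.sum_smul, h2, one_smul])
  r_mem := fun {k W} i a ⟨L, a1, a2, a3⟩ =>
    ⟨tsupport (ρ i) ∩ L, (isClosed_tsupport _).inter a1, inter_subset_inter (h3 i) a2,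
      fun x hx => by
        change ρ i (F x) • a.1 x = 0
        by_cases h : F x ∈ L
        · rw [image_eq_zero_of_notMem_tsupport fun h' => hx ⟨h', h⟩, zero_smul]
        · rw [a3 x h, smul_zero]⟩

/-- the volume form of a basis -/
def vol {n : ℕ} (b : Basis (Fin n) ℝ E) : E [⋀^Fin n]→L[ℝ] ℝ :=
  { b.det with cont := b.continuous_toMatrix.matrix_det }

theorem vol_self {n : ℕ} (b : Basis (Fin n) ℝ E) : vol b b = 1 := b.det_self

theorem contMDiff_comp {E' : Type*} [NormedAddCommGroup E'] [NormedSpace ℝ E'] {Y : Type*}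
    [TopologicalSpace Y] [ChartedSpace E' Y] [IsManifold 𝓘(ℝ, E') ∞ Y] {F : X → Y} {x : X}
    (hF : SmM E E' F x) {r : Y → ℝ} (hr : ContMDiffAt 𝓘(ℝ, E') 𝓘(ℝ, ℝ) ∞ r (F x)) :
    ContMDiffAt 𝓘(ℝ, E) 𝓘(ℝ, ℝ) ∞ (fun x => r (F x)) x := by
  refine hr.comp x (contMDiffAt_iff.2 ⟨hF.1, ?_⟩)
  simpa [extChartAt, Function.comp_def, contDiffWithinAt_univ] using hF.2

end ext

theorem inj : INJ := by
  intro E _ _ _ _ _ μ _ m b X Y _ _ _ _ _ _ _ _ _ _ _ _ F hF hI k τ θ hk h1 h2 h3 h4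
  classical
  obtain ⟨G, -⟩ := P267.H368.exists_goodCover_manifold (𝕜 := ℝ) (E := E) (X := Y) (n := ∞)
    (by norm_cast) (toEuclidean (E := E)) (κ := Unit) (fun _ => univ)
    (fun _ => isOpen_univ) (fun _ => ⟨(), trivial⟩)
  obtain ⟨f, hf⟩ := SmoothPartitionOfUnity.exists_isSubordinate 𝓘(ℝ, E) isClosed_univ
    G.U G.isOpen_U (fun x _ => mem_iUnion.2 (G.exists_mem_U x))
  have hsum : ∀ y, ∑ i, f i y = 1 := fun y => by
    rw [← finsum_eq_sum_of_fintype]; exact f.sum_eq_one trivial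
  have hFc : Continuous F := continuous_iff_continuousAt.2 fun x => (hF x).1
  have hUT : ∀ p (γ : Tup (Fin G.n) p), ∃ s : Finset (Fin G.n), UT G.U p γ = ⋂ j ∈ s, G.U j := by
    intro p
    induction p with
    | zero => exact fun γ => ⟨∅, by simp [UT]⟩
    | succ p ih =>
      intro γ
      obtain ⟨s, hs⟩ := ih γ.2
      exact ⟨insert γ.1 s, by rw [Finset.set_biInter_insert, ← hs]; rfl⟩
  have hV : ∀ p (γ : Tup (Fin G.n) (p + 1)), ∃ e ∈ atlas E Y, UT G.U (p + 1) γ ⊆ e.source ∧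
      Convex ℝ (e '' UT G.U (p + 1) γ) ∧ IsOpen (e '' UT G.U (p + 1) γ) := by
    intro p γ
    refine ⟨G.e γ.1, G.e_mem _, fun x hx => G.U_sub_source _ hx.1, ?_⟩
    rcases (UT G.U (p + 1) γ).eq_empty_or_nonempty with h | h
    · rw [h, image_empty]; exact ⟨convex_empty, isOpen_empty⟩
    · obtain ⟨s, hs⟩ := hUT p γ.2
      have e1 : UT G.U (p + 1) γ = ⋂ j ∈ insert γ.1 s, G.U j := by
        rw [Finset.set_biInter_insert, ← hs]; rfl
      rw [e1] at h ⊢
      exact (G.inter_convex (Finset.mem_insert_self _ _) h).2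
  let C := cx (E := E) G.U id continuous_id (fun i y => f i y) (fun i => (f i).contMDiff) hsum hf
  let C' := cx (E := E) G.U F hFc (fun i y => f i y)
    (fun i x => contMDiff_comp (hF x) ((f i).contMDiff _)) hsum hf
  let φ : ∀ {k}, Sm E Y k →+ Sm E X k := AddMonoidHom.mk' (fun a => ⟨pb E F a.1, fun x =>
    smAt_pb (Eventually.of_forall hF) (a.2 _)⟩) fun a b => rfl
  let I' : Sm E X (m + 1) →+ ℝ :=
    AddMonoidHom.mk' (fun a => intG μ b a.1) fun a a' => intG_add μ b a.2 a'.2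
  have hIφ : ∀ a : Sm E Y (m + 1), I' (φ a) = intG μ b a.1 := fun a => hI a.1 a.2
  have hz := Cx.zig (C := C) C' m φ
    (fun a => Subtype.ext (funext fun x => (dF_pb (Eventually.of_forall hF) (a.2 _)).symm))
    (fun {k W a} ⟨L, a1, a2, a3⟩ => ⟨L, a1, a2, fun x hx => pb_eq_zero (a3 _ hx)⟩) I'
    (fun y => intG_dF μ b y.2) ?_ ?_ ?_ (m - k) 0 k (by omega) (fun _ => ⟨τ, h1⟩)
    (fun _ => ⟨θ, h3⟩) (C.exact0 _) (fun _ => Subtype.ext (funext h2)) (C'.exact0 _)
    fun _ => Subtype.ext (funext h4)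
  · obtain ⟨z, -, hz⟩ := hz
    exact ⟨(z ()).1, (z ()).2, fun y => congrFun (congrArg Subtype.val (hz ())) y⟩
  · rintro p γ y ⟨L, a1, a2, a3⟩
    rcases L.eq_empty_or_nonempty with rfl | ⟨y₀, hy₀⟩
    · obtain rfl : y = 0 := Subtype.ext (funext fun x => a3 x (notMem_empty _))
      exact ⟨0, zero_mem _, by rw [_root_.map_zero]⟩
    obtain ⟨e, he, k1, -, k3⟩ := hV p γ
    obtain ⟨r, hr, hb⟩ := Metric.nhds_basis_closedBall.mem_iff.1
      (k3.mem_nhds (mem_image_of_mem e (a2 hy₀)))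
    let B : ContDiffBump (e y₀) := ⟨r / 2, r, by positivity, by linarith⟩
    have hKe : Metric.closedBall (e y₀) r ⊆ e.target := fun z hz => by
      obtain ⟨x, hx, rfl⟩ := hb hz
      exact e.map_source (k1 hx)
    set c := I' y / ∫ z, B z ∂μ with hc
    have g1 : ContDiff ℝ ∞ fun z => (c * B z) • vol b :=
      (contDiff_const.mul B.contDiff).smul contDiff_const
    have g0 : ∀ z ∉ Metric.closedBall (e y₀) r, B z = 0 := fun z hz =>
      B.zero_of_le_dist (le_of_lt (not_le.1 hz))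
    have g2 : ∀ z ∉ Metric.closedBall (e y₀) r, (c * B z) • vol b = 0 := fun z hz => by
      rw [g0 z hz, mul_zero, zero_smul]
    have g3 := smAt_ext0 he g1 (isCompact_closedBall _ _) hKe g2
    refine ⟨⟨_, g3⟩, ⟨_, (isCompact_symm (isCompact_closedBall _ _) hKe).isClosed, ?_,
      fun x => ext0_zero g2⟩, ?_⟩
    · rintro _ ⟨z, hz, rfl⟩
      obtain ⟨x, hx, rfl⟩ := hb hz
      rwa [e.left_inv (k1 hx)]
    rw [hIφ, intG_chart μ b g3 he fun y hy => indicator_of_notMem hy _,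
      setIntegral_congr_fun (g := fun z => c * B z) e.open_target.measurableSet fun z hz => by
        simp only [loc_ext0 he hz, ContinuousAlternatingMap.smul_apply, vol_self, smul_eq_mul,
          mul_one],
      setIntegral_eq_integral_of_forall_compl_eq_zero fun z hz => by
        rw [g0 z fun h => hz (hKe h), mul_zero],
      integral_const_mul, hc, div_mul_cancel₀ _ B.integral_pos.ne']
  · rintro p γ x ⟨L, a1, a2, a3⟩ h0
    obtain ⟨e, he, k1, k2, k3⟩ := hV p γ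
    have hL := a1.isCompact
    obtain ⟨β, b1, b2, b3⟩ := prim_of he k1 (fun y hy => a3 y fun h => hy (a2 h))
      (cpt E μ _ _ m b _ k3 k2 (hL.image_of_continuousOn (e.continuousOn.mono (a2.trans k1)))
        (image_mono a2) (contDiff_fl he x.2 hL (a2.trans k1) a3) (fun z => fl_zero a3) (by
          rw [hIφ, intG_chart μ b x.2 he fun y hy => a3 y fun h => hy (k1 (a2 h)),
            ← integral_indicator e.open_target.measurableSet] at h0
          refine Eq.trans (integral_congr_ae (Eventually.of_forall fun z => ?_)) h0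
          by_cases hz : z ∈ e.target <;> simp [fl, hz]))
    exact ⟨⟨β, b1⟩, b2, Subtype.ext (funext b3)⟩
  · rintro p γ k hk x ⟨L, a1, a2, a3⟩ h0
    obtain ⟨e, he, k1, k2, k3⟩ := hV p γ
    have hL := a1.isCompact
    obtain ⟨β, b1, b2, b3⟩ := prim_of he k1 (fun y hy => a3 y fun h => hy (a2 h))
      (cpl E _ _ k _ k3 k2 (hL.image_of_continuousOn (e.continuousOn.mono (a2.trans k1)))
        (image_mono a2) (contDiff_fl he x.2 hL (a2.trans k1) a3) (fun z => fl_zero a3)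
        (fun z => by
          by_cases hz : z ∈ e.target
          · rw [(fl_ev hz).extDeriv_eq, ← loc_dF he hz (x.2 _), loc,
              show dF x.1 (e.symm z) = 0 from congrFun (congrArg Subtype.val h0) _]
            rfl
          · rw [(fl_ev0 hL (a2.trans k1) a3 hz).extDeriv_eq]
            exact extDeriv_zero' _)
        (by rw [finrank_eq_card_basis b, Fintype.card_fin]; omega))
    exact ⟨⟨β, b1⟩, b2, Subtype.ext (funext b3)⟩

end Vale.Agent.P277Z.Tr
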