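import Vale.Agent.P277Z.Tr.Sk
import Vale.Agent.P284.H451.D.Sard

/-!
# P277Z, block TR: general slices of the image of a contracted manifold are countable
-/

set_option linter.all false

open scoped Manifold ContDiff Topology
open Set Filter MeasureTheory Module Function
open Vale.Agent.P267.H928.Int
open Vale.Agent.P272.K (Cm Chart At)

noncomputable section

namespace Vale.Agent.P277Z.Tr

namespace SliceAux

section flat

variable {V W Z : Type} [NormedAddCommGroup V] [NormedSpace ℂ V] [FiniteDimensional ℂ V]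
  [NormedAddCommGroup W] [NormedSpace ℂ W] [NormedAddCommGroup Z] [NormedSpace ℂ Z]
  [FiniteDimensional ℂ Z]

omit [FiniteDimensional ℂ V] in
theorem ker_of {L : V →L[ℂ] W} (h : ¬ Injective L) : ∃ k, k ≠ 0 ∧ L k = 0 := by
  by_contra hc
  refine h ((injective_iff_map_eq_zero L).2 fun k hk => ?_)
  by_contra h0
  exact hc ⟨k, h0, hk⟩

/-- a map of rank at most `dim V - 1` is locally constant on the fibres of a submersion with one
dimensional fibres which factors through it -/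
theorem loc_const [CompleteSpace W] (hd : finrank ℂ V = finrank ℂ Z + 1) {g : V → W}
    (v : W →L[ℂ] Z) {z : V} (hg : AnalyticAt ℂ g z)
    (hk : ∀ᶠ w in 𝓝 z, ¬ Injective (fderiv ℂ g w))
    (hs : Surjective (fderiv ℂ (fun w => v (g w)) z)) :
    ∀ᶠ w in 𝓝 z, v (g w) = v (g z) → g w = g z := by
  have : CompleteSpace V := FiniteDimensional.complete ℂ V
  obtain ⟨k, hk0, hk1⟩ := ker_of hk.self_of_nhds
  obtain ⟨l, hl⟩ := SeparatingDual.exists_eq_one (R := ℂ) hk0
  set Φ : V → Z × ℂ := fun w => (v (g w), l w) with hΦ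
  have hD : ∀ w, DifferentiableAt ℂ g w →
      HasFDerivAt Φ ((v.comp (fderiv ℂ g w)).prod l) w := fun w hw =>
    (v.hasFDerivAt.comp w hw.hasFDerivAt).prodMk l.hasFDerivAt
  have h1 : fderiv ℂ (fun w => v (g w)) z = v.comp (fderiv ℂ g z) :=
    (v.hasFDerivAt.comp z hg.differentiableAt.hasFDerivAt).fderiv
  rw [h1] at hs
  set A : V →L[ℂ] Z × ℂ := (v.comp (fderiv ℂ g z)).prod l with hA
  have hsur : Surjective A := by
    rintro ⟨c, t⟩
    obtain ⟨x, hx⟩ := hs c
    refine ⟨x + (t - l x) • k, ?_⟩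
    have hx' : v (fderiv ℂ g z x) = c := hx
    simp [hA, hk1, hl, hx']
  have hinj : Injective A :=
    (LinearMap.injective_iff_surjective_of_finrank_eq_finrank (f := (A : V →ₗ[ℂ] Z × ℂ))
      (by simp [hd])).2 hsur
  set A' : V ≃L[ℂ] Z × ℂ :=
    (LinearEquiv.ofBijective (A : V →ₗ[ℂ] Z × ℂ) ⟨hinj, hsur⟩).toContinuousLinearEquiv with hA'
  have hA2 : (A' : V →L[ℂ] Z × ℂ) = A := by ext x <;> rfl
  have hΦc : ContDiffAt ℂ ω Φ z :=
    ((v.analyticAt _).comp hg).contDiffAt.prodMk l.contDiff.contDiffAt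
  have hΦ' : HasFDerivAt Φ (A' : V →L[ℂ] Z × ℂ) z := hA2 ▸ hD z hg.differentiableAt
  have hn : (ω : WithTop ℕ∞) ≠ 0 := by simp
  have hst := hΦc.hasStrictFDerivAt' hΦ' hn
  set Ψ : Z × ℂ → V := hΦc.localInverse hΦ' hn with hΨ
  have hΨa : AnalyticAt ℂ Ψ (Φ z) := (hΦc.to_localInverse hΦ' hn).analyticAt
  have hleft : ∀ᶠ w in 𝓝 z, Ψ (Φ w) = w := hst.eventually_left_inverse
  have hright : ∀ᶠ y in 𝓝 (Φ z), Φ (Ψ y) = y := hst.eventually_right_inverse
  have hten : Tendsto Ψ (𝓝 (Φ z)) (𝓝 z) := hst.localInverse_tendsto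
  have key : ∀ᶠ y in 𝓝 (Φ z), ∃ B : Z × ℂ →L[ℂ] W,
      HasFDerivAt (fun y => g (Ψ y)) B y ∧ B (0, 1) = 0 := by
    filter_upwards [hΨa.eventually_analyticAt, hright, hten.eventually hg.eventually_analyticAt,
      hten.eventually hk, hten.eventually hleft.eventually_nhds] with y h2 h3 h4 h5 h6
    obtain ⟨k', hk2, hk3⟩ := ker_of h5
    refine ⟨_, h4.differentiableAt.hasFDerivAt.comp y h2.differentiableAt.hasFDerivAt, ?_⟩
    have h7 : HasFDerivAt Ψ (fderiv ℂ Ψ y) (Φ (Ψ y)) := by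
      rw [h3]; exact h2.differentiableAt.hasFDerivAt
    have h8 := (h7.comp (Ψ y) (hD _ h4.differentiableAt)).unique
      ((hasFDerivAt_id (Ψ y)).congr_of_eventuallyEq h6)
    have h9 : l k' • fderiv ℂ Ψ y (0, 1) = k' := by
      have := congrArg (fun L : V →L[ℂ] V => L k') h8
      simp only [ContinuousLinearMap.comp_apply, ContinuousLinearMap.prod_apply, hk3, map_zero,
        ContinuousLinearMap.id_apply] at this
      rw [← map_smul, Prod.smul_mk, smul_zero, smul_eq_mul, mul_one]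
      exact this
    have h10 : l k' ≠ 0 := fun h0 => hk2 (by rw [← h9, h0, zero_smul])
    have h11 : l k' • fderiv ℂ g (Ψ y) (fderiv ℂ Ψ y (0, 1)) = 0 := by
      rw [← map_smul, h9, hk3]
    exact (smul_eq_zero.1 h11).resolve_left h10
  have hc : Tendsto (fun t : ℂ => (v (g z), t)) (𝓝 (l z)) (𝓝 (Φ z)) :=
    (Continuous.prodMk_right (v (g z))).tendsto (l z)
  obtain ⟨ε, hε, hb⟩ := Metric.eventually_nhds_iff_ball.1 (hc.eventually key)
  have hG : ∀ t ∈ Metric.ball (l z) ε, HasDerivAt (fun t : ℂ => g (Ψ (v (g z), t))) 0 t := by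
    intro t ht
    obtain ⟨B, hB, hB0⟩ := hb t ht
    have h2 : HasDerivAt (fun t : ℂ => (v (g z), t)) ((0 : Z), (1 : ℂ)) t :=
      (hasDerivAt_const t _).prodMk (hasDerivAt_id t)
    have := hB.comp_hasDerivAt t h2
    rwa [hB0] at this
  filter_upwards [hleft, l.continuous.continuousAt.eventually (Metric.ball_mem_nhds (l z) hε)]
    with w h2 h3 h4
  have h5 := Metric.isOpen_ball.is_const_of_deriv_eq_zero (convex_ball (l z) ε).isPreconnected
    (fun t ht => (hG t ht).differentiableAt.differentiableWithinAt) (fun t ht => (hG t ht).deriv)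
    h3 (Metric.mem_ball_self hε)
  have h6 : (v (g z), l w) = Φ w := by rw [← h4]
  have h7 : Ψ (v (g z), l z) = z := hleft.self_of_nhds
  simp only [h6, h2, h7] at h5
  exact h5

theorem flat [CompleteSpace W] {n : ℕ} (hd : finrank ℂ V = n + 1) {U : Set V} (hU : IsOpen U)
    {g : V → W} (v : W →L[ℂ] Cm n) (hg : ∀ z ∈ U, AnalyticAt ℂ g z)
    (hk : ∀ z ∈ U, ¬ Injective (fderiv ℂ g z)) :
    ∀ᵐ c : Cm n, (g '' {z | z ∈ U ∧ v (g z) = c}).Countable := by
  have : ProperSpace V := FiniteDimensional.proper ℂ V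
  filter_upwards [P284.H451.D.sard_ae (T := fun w => v (g w)) hU
    fun z hz => (v.analyticAt _).comp (hg z hz)] with c hc
  obtain ⟨t, ht, htc, hcov⟩ := TopologicalSpace.countable_cover_nhdsWithin
    (s := {z | z ∈ U ∧ v (g z) = c}) (f := fun z => {w | g w = g z}) (fun z hz => by
      have h1 := loc_const (by simpa using hd) v (hg z hz.1)
        (Filter.mem_of_superset (hU.mem_nhds hz.1) hk) (hc z hz.1 hz.2)
      filter_upwards [nhdsWithin_le_nhds h1, self_mem_nhdsWithin] with w h2 h3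
      exact h2 (h3.2.trans hz.2.symm))
  refine (htc.image g).mono ?_
  rintro _ ⟨w, hw, rfl⟩
  obtain ⟨z, hz, h⟩ := mem_iUnion₂.1 (hcov hw)
  exact ⟨z, hz, h.symm⟩

end flat

theorem tr {d : ℕ} {X : Type} [TopologicalSpace X] [ChartedSpace (Cm d) X]
    [IsManifold 𝓘(ℂ, Cm d) ω X] {e e' : Chart d X} {x : X} (h : At e x) (h' : At e' x) :
    DifferentiableAt ℂ (fun z => e' (e.symm z)) (e x) :=
  (chg_contDiffAt_complex h.1 h'.1 (e.map_source h.2)
    (by rw [e.left_inv h.2]; exact h'.2)).differentiableAt (by simp)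

/-- the differential in arbitrary charts is not injective -/
theorem ctr {d' d : ℕ} {D Y : Type} [TopologicalSpace D] [ChartedSpace (Cm d') D]
    [IsManifold 𝓘(ℂ, Cm d') ω D] [TopologicalSpace Y] [ChartedSpace (Cm d) Y]
    [IsManifold 𝓘(ℂ, Cm d) ω Y] {f : D → Y} (hf : HolM d' d f) (hc : Ctr d' d f) {p : D}
    {c : Chart d' D} {e : Chart d Y} (h : At c p) (h' : At e (f p)) :
    ¬ Injective (fderiv ℂ (fun z => e (f (c.symm z))) (c p)) := by
  intro hinj
  set c' := chartAt (Cm d') p with hc'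
  set e' := chartAt (Cm d) (f p) with he'
  have a1 : At c' p := ⟨chart_mem_atlas _ _, mem_chart_source _ _⟩
  have a2 : At e' (f p) := ⟨chart_mem_atlas _ _, mem_chart_source _ _⟩
  obtain ⟨k, hk0, hk⟩ := ker_of (hc p)
  have hk' : fderiv ℂ (fun z => e' (f (c'.symm z))) (c' p) k = 0 := hk
  have l1 : c'.symm (c' p) = p := c'.left_inv a1.2
  have d1 := (tr a1 h).hasFDerivAt
  have d2 : HasFDerivAt (fun z => c' (c.symm z)) (fderiv ℂ (fun z => c' (c.symm z)) (c p))
      (c (c'.symm (c' p))) := by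
    rw [l1]; exact (tr h a1).hasFDerivAt
  have d3 : HasFDerivAt (fun z => e (f (c.symm z))) (fderiv ℂ (fun z => e (f (c.symm z))) (c p))
      (c (c'.symm (c' p))) := by
    rw [l1]; exact (hf.2 p c e h h').differentiableAt.hasFDerivAt
  have d4 := (hf.2 p c' e' a1 a2).differentiableAt.hasFDerivAt
  have d5 : HasFDerivAt (fun z => e (e'.symm z)) (fderiv ℂ (fun z => e (e'.symm z)) (e' (f p)))
      (e' (f (c'.symm (c' p)))) := by
    rw [l1]; exact (tr a2 h').hasFDerivAt
  have e1 : (fun z => c' (c.symm z)) ∘ (fun z => c (c'.symm z)) =ᶠ[𝓝 (c' p)] id := by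
    filter_upwards [ev_symm a1.2 (c.open_source.mem_nhds h.2),
      c'.open_target.mem_nhds (c'.map_source a1.2)] with z h1 h2
    simp only [comp_apply, id]
    rw [c.left_inv h1, c'.right_inv h2]
  have e2 : (fun z => e (f (c.symm z))) ∘ (fun z => c (c'.symm z)) =ᶠ[𝓝 (c' p)]
      (fun z => e (e'.symm z)) ∘ fun z => e' (f (c'.symm z)) := by
    filter_upwards [ev_symm a1.2 (c.open_source.mem_nhds h.2),
      ev_symm a1.2 (hf.1.continuousAt.preimage_mem_nhds (e'.open_source.mem_nhds a2.2))]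
      with z h1 h2
    simp only [comp_apply]
    rw [c.left_inv h1, e'.left_inv h2]
  have k1 := congrArg (fun L : Cm d' →L[ℂ] Cm d' => L k) ((d2.comp (c' p) d1).unique
    ((hasFDerivAt_id _).congr_of_eventuallyEq e1))
  have k2 := congrArg (fun L : Cm d' →L[ℂ] Cm d => L k) ((d3.comp (c' p) d1).unique
    ((d5.comp (c' p) d4).congr_of_eventuallyEq e2))
  simp only [ContinuousLinearMap.comp_apply, ContinuousLinearMap.id_apply, hk', map_zero] at k1 k2
  rw [(injective_iff_map_eq_zero _).1 hinj _ k2, map_zero] at k1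
  exact hk0 k1.symm

end SliceAux

open SliceAux in
theorem slice : SLICE := by
  intro n d D Y _ _ _ _ _ _ _ _ f e v hf hc he
  obtain ⟨t, -, ht⟩ := isCompact_univ.elim_nhds_subcover
    (fun x : D => (chartAt (Cm (n + 1)) x).source) fun x _ => chart_source_mem_nhds _ x
  have h1 : ∀ x : D, ∀ᵐ c : Cm n, ((fun z => e (f ((chartAt (Cm (n + 1)) x).symm z))) ''
      {z | z ∈ (chartAt (Cm (n + 1)) x).target ∩ (chartAt (Cm (n + 1)) x).symm ⁻¹'
        (f ⁻¹' e.source) ∧ v (e (f ((chartAt (Cm (n + 1)) x).symm z))) = c}).Countable := by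
    intro x
    set c := chartAt (Cm (n + 1)) x with hc'
    have a : ∀ z ∈ c.target, At c (c.symm z) := fun z hz =>
      ⟨chart_mem_atlas _ _, c.map_target hz⟩
    refine flat (by simp) (c.symm.isOpen_inter_preimage (e.open_source.preimage hf.1)) v
      (fun z hz => ?_) fun z hz => ?_
    · have := hf.2 _ c e (a z hz.1) ⟨he, hz.2⟩
      rwa [c.right_inv hz.1] at this
    · have := ctr hf hc (a z hz.1) ⟨he, hz.2⟩
      rwa [c.right_inv hz.1] at this
  filter_upwards [(ae_ball_iff t.countable_toSet).2 fun x _ => h1 x] with c h2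
  refine ((t.countable_toSet.biUnion h2).image e.symm).mono ?_
  rintro _ ⟨⟨p, rfl⟩, h3, h4⟩
  obtain ⟨x, hx, h5⟩ := mem_iUnion₂.1 (ht (mem_univ p))
  have h6 := (chartAt (Cm (n + 1)) x).left_inv h5
  refine ⟨e (f p), mem_iUnion₂.2 ⟨x, hx, chartAt (Cm (n + 1)) x p,
    ⟨⟨(chartAt (Cm (n + 1)) x).map_source h5, ?_⟩, ?_⟩, ?_⟩, e.left_inv h3⟩
  · rw [mem_preimage, h6]; exact h3
  · rw [h6]; exact h4
  · simp only [h6]

end Vale.Agent.P277Z.Tr
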