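import Mathlib

/-!
# P277Z, block TR: the algebra of the double complex of a finite cover
-/

set_option linter.all false

open Finset

namespace Vale.Agent.P277Z.Tr

/-- tuples -/
def Tup (ι : Type) : ℕ → Type
  | 0 => Unit
  | p + 1 => ι × Tup ι p

variable {ι : Type} [Fintype ι]

/-- the boundary -/
def bd {M : Type*} [AddCommGroup M] : (p : ℕ) → (Tup ι (p + 1) → M) → Tup ι p → M
  | 0, σ, γ => ∑ a, σ (a, γ)
  | p + 1, σ, γ => ∑ a, σ (a, γ) - bd p (fun δ => σ (γ.1, δ)) γ.2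

section

variable {M N : Type*} [AddCommGroup M] [AddCommGroup N]

theorem map_bd (f : M →+ N) : ∀ (p : ℕ) (σ : Tup ι (p + 1) → M) (γ : Tup ι p),
    f (bd p σ γ) = bd p (fun δ => f (σ δ)) γ
  | 0, σ, γ => by simp [bd, map_sum]
  | p + 1, σ, γ => by simp [bd, map_sum, map_bd f p]

theorem bd_sub : ∀ (p : ℕ) (σ τ : Tup ι (p + 1) → M) (γ : Tup ι p),
    bd p (fun δ => σ δ - τ δ) γ = bd p σ γ - bd p τ γ
  | 0, σ, τ, γ => by simp [bd]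
  | p + 1, σ, τ, γ => by
    simp only [bd, sum_sub_distrib]
    rw [bd_sub p (fun δ => σ (γ.1, δ)) fun δ => τ (γ.1, δ)]
    abel

theorem bd_sum : ∀ (p : ℕ) (σ : ι → Tup ι (p + 1) → M) (γ : Tup ι p),
    bd p (fun δ => ∑ a, σ a δ) γ = ∑ a, bd p (σ a) γ
  | 0, σ, γ => by simp only [bd]; exact sum_comm
  | p + 1, σ, γ => by
    simp only [bd, sum_sub_distrib]
    rw [bd_sum p fun a δ => σ a (γ.1, δ), sum_comm]

theorem bd_bd : ∀ (p : ℕ) (σ : Tup ι (p + 2) → M) (γ : Tup ι p), bd p (bd (p + 1) σ) γ = 0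
  | 0, σ, γ => by
    simp only [bd, sum_sub_distrib]
    rw [sum_comm, sub_self]
  | p + 1, σ, γ => by
    have h3 : ∑ a, bd (p + 1) (fun ε => σ (a, ε)) γ =
        ∑ b, ∑ a, σ (a, b, γ) - bd p (fun δ => ∑ a, σ (a, γ.1, δ)) γ.2 := by
      rw [← bd_sum (p + 1) fun a ε => σ (a, ε)]; rfl
    have h4 := bd_sub p (fun δ => ∑ a, σ (a, γ.1, δ))
      (fun δ => bd (p + 1) (fun ε => σ (γ.1, ε)) δ) γ.2
    rw [bd_bd p] at h4
    change ∑ a, (∑ b, σ (b, a, γ) - bd (p + 1) (fun ε => σ (a, ε)) γ) -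
      bd p (fun δ => ∑ a, σ (a, γ.1, δ) - bd (p + 1) (fun ε => σ (γ.1, ε)) δ) γ.2 = 0
    rw [h4, sum_sub_distrib, h3]
    abel

end

variable {X : Type*}

/-- intersections -/
def UT (U : ι → Set X) : (p : ℕ) → Tup ι p → Set X
  | 0, _ => Set.univ
  | p + 1, γ => U γ.1 ∩ UT U p γ.2

theorem bd_mem {M : Type*} [AddCommGroup M] (S : Set X → AddSubgroup M) 
    (hS : ∀ {A B}, A ⊆ B → ∀ {x}, x ∈ S A → x ∈ S B) (U : ι → Set X) : ∀ (p : ℕ) (W : Set X) (σ : Tup ι (p + 1) → M),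
    (∀ γ, σ γ ∈ S (W ∩ UT U (p + 1) γ)) → ∀ γ, bd p σ γ ∈ S (W ∩ UT U p γ)
  | 0, W, σ, h, γ => sum_mem fun a _ => by
    refine hS ?_ (h (a, γ))
    exact fun x hx => ⟨hx.1, trivial⟩
  | p + 1, W, σ, h, γ => by
    refine sub_mem (sum_mem fun a _ => ?_) ?_
    · refine hS ?_ (h (a, γ))
      exact fun x hx => ⟨hx.1, hx.2.2⟩
    refine hS ?_ (bd_mem S hS U p (W ∩ U γ.1) (fun δ => σ (γ.1, δ)) (fun δ => ?_) γ.2)
    · exact fun x hx => ⟨hx.1.1, hx.1.2, hx.2⟩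
    · refine hS ?_ (h (γ.1, δ))
      exact fun x hx => ⟨⟨hx.1, hx.2.1⟩, hx.2.2⟩

/-- A complex with supports and a partition of unity. -/
structure Cx (U : ι → Set X) (M : ℕ → Type*) [∀ k, AddCommGroup (M k)] where
  d : ∀ {k}, M k →+ M (k + 1)
  dd : ∀ {k} (x : M k), d (d x) = 0
  S : ∀ k, Set X → AddSubgroup (M k)
  mono : ∀ k {A B}, A ⊆ B → ∀ {x}, x ∈ S k A → x ∈ S k B
  top : ∀ k x, x ∈ S k Set.univ
  d_mem : ∀ {k W} {x : M k}, x ∈ S k W → d x ∈ S (k + 1) W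
  r : ∀ {k}, ι → M k →+ M k
  r_sum : ∀ {k} (x : M k), ∑ a, r a x = x
  r_mem : ∀ {k W} (a) {x : M k}, x ∈ S k W → r a x ∈ S k (U a ∩ W)

namespace Cx

variable {U : ι → Set X} {M M' : ℕ → Type*} [∀ k, AddCommGroup (M k)] [∀ k, AddCommGroup (M' k)]
  (C : Cx U M) (C' : Cx U M')

/-- chains -/
def Ch (p k : ℕ) (σ : Tup ι p → M k) : Prop := ∀ γ, σ γ ∈ C.S k (UT U p γ)

/-- boundaries -/
def Bd (p k : ℕ) (σ : Tup ι p → M k) : Prop := ∃ τ, C.Ch (p + 1) k τ ∧ ∀ γ, bd p τ γ = σ γ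

variable {C}

theorem Ch.bd {p k : ℕ} {σ : Tup ι (p + 1) → M k} (h : C.Ch (p + 1) k σ) : C.Ch p k (bd p σ) :=
  fun γ => by
    simpa using bd_mem (C.S k) (C.mono k) U p Set.univ σ (fun δ => by simpa using h δ) γ

theorem Ch.sub {p k : ℕ} {σ τ : Tup ι p → M k} (h : C.Ch p k σ) (h' : C.Ch p k τ) :
    C.Ch p k fun γ => σ γ - τ γ := fun γ => sub_mem (h γ) (h' γ)

theorem Ch.d {p k : ℕ} {σ : Tup ι p → M k} (h : C.Ch p k σ) :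
    C.Ch p (k + 1) fun γ => C.d (σ γ) := fun γ => C.d_mem (h γ)

theorem exact {p k : ℕ} {σ : Tup ι (p + 1) → M k} (h : C.Ch (p + 1) k σ)
    (h0 : ∀ γ, bd p σ γ = 0) : C.Bd (p + 1) k σ := by
  refine ⟨fun δ => C.r δ.1 (σ δ.2), fun δ => C.r_mem _ (h _), fun γ => ?_⟩
  change ∑ a, C.r a (σ γ) - bd p (fun δ => C.r γ.1 (σ δ)) γ.2 = _
  rw [C.r_sum, ← map_bd, h0, map_zero, sub_zero]

variable (C) in
theorem exact0 {k : ℕ} (σ : Tup ι 0 → M k) : C.Bd 0 k σ :=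
  ⟨fun δ => C.r δ.1 (σ δ.2), fun δ => C.r_mem _ (C.top _ _), fun γ => C.r_sum (σ γ)⟩

/-- the zigzag -/
theorem zig (m : ℕ) (f : ∀ {k}, M k →+ M' k) (fd : ∀ {k} (x : M k), f (C.d x) = C'.d (f x))
    (fS : ∀ {k W} {x : M k}, x ∈ C.S k W → f x ∈ C'.S k W) (I' : M' (m + 1) →+ ℝ)
    (hI : ∀ y, I' (C'.d y) = 0)
    (hsurj : ∀ p γ, ∀ y ∈ C'.S (m + 1) (UT U (p + 1) γ),
      ∃ x ∈ C.S (m + 1) (UT U (p + 1) γ), I' (f x) = I' y)
    (htop : ∀ p γ, ∀ x ∈ C.S (m + 1) (UT U (p + 1) γ), I' (f x) = 0 →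
      ∃ y ∈ C.S m (UT U (p + 1) γ), C.d y = x)
    (hcpl : ∀ p γ k, k < m → ∀ x ∈ C.S (k + 1) (UT U (p + 1) γ), C.d x = 0 →
      ∃ y ∈ C.S k (UT U (p + 1) γ), C.d y = x) :
    ∀ (j p k : ℕ), k + j = m → ∀ (w : Tup ι p → M (k + 1)) (z' : Tup ι p → M' k),
      C.Bd p (k + 1) w → (∀ γ, C.d (w γ) = 0) → C'.Bd p k z' → (∀ γ, C'.d (z' γ) = f (w γ)) →
      ∃ z, C.Bd p k z ∧ ∀ γ, C.d (z γ) = w γ := by
  have key : ∀ {p k} {w : Tup ι p → M (k + 1)} {z' : Tup ι p → M' k} {η ξ'},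
      C.Ch (p + 1) (k + 1) η → (∀ γ, bd p η γ = w γ) → C'.Ch (p + 1) k ξ' →
      (∀ γ, bd p ξ' γ = z' γ) → (∀ γ, C'.d (z' γ) = f (w γ)) →
      C'.Bd (p + 1) (k + 1) fun γ => f (η γ) - C'.d (ξ' γ) := by
    intro p k w z' η ξ' h1 h2 h3 h4 h5
    refine exact (Ch.sub (fun γ => fS (h1 γ)) h3.d) fun γ => ?_
    rw [bd_sub, ← map_bd, ← map_bd, h2, h4, h5, sub_self]
  have fin : ∀ {p k} {w : Tup ι p → M (k + 1)} {η l : Tup ι (p + 1) → M (k + 1)},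
      (∀ γ, bd p η γ = w γ) → C.Bd (p + 1) (k + 1) l →
      (∀ γ, ∃ y ∈ C.S k (UT U (p + 1) γ), C.d y = η γ - l γ) →
      ∃ z, C.Bd p k z ∧ ∀ γ, C.d (z γ) = w γ := by
    intro p k w η l h2 ⟨t, _, ht⟩ h
    choose ξ h1 h3 using h
    refine ⟨bd p ξ, ⟨ξ, h1, fun _ => rfl⟩, fun γ => ?_⟩
    rw [map_bd]
    simp only [h3]
    rw [bd_sub, h2, show l = bd (p + 1) t from funext fun γ => (ht γ).symm, bd_bd, sub_zero]
  intro j
  induction j with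
  | zero =>
    rintro p k hk w z' ⟨η, h1, h2⟩ - ⟨ξ', h3, h4⟩ h5
    obtain rfl : k = m := hk
    obtain ⟨l', k1, k2⟩ := key h1 h2 h3 h4 h5
    choose l k3 k4 using fun γ : Tup ι (p + 2) => hsurj (p + 1) γ _ (k1 γ)
    refine fin h2 ⟨l, k3, fun _ => rfl⟩ fun γ => htop p γ _ (sub_mem (h1 γ) (Ch.bd k3 γ)) ?_
    rw [map_sub, map_sub, map_bd, map_bd]
    simp only [k4]
    rw [← map_bd, k2, map_sub, hI, sub_zero, sub_self]
  | succ j ih =>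
    rintro p k hk w z' ⟨η, h1, h2⟩ h0 ⟨ξ', h3, h4⟩ h5
    obtain ⟨l, k1, k2⟩ := ih (p + 1) (k + 1) (by omega) (fun γ => C.d (η γ)) _
      (exact h1.d fun γ => by rw [← map_bd, h2, h0]) (fun γ => C.dd _) (key h1 h2 h3 h4 h5)
      fun γ => by rw [map_sub, C'.dd, sub_zero, fd]
    obtain ⟨t, k3, k4⟩ := id k1
    refine fin h2 k1 fun γ => hcpl p γ k (by omega) _ (sub_mem (h1 γ) ?_) ?_
    · rw [← k4]; exact k3.bd γ
    · rw [map_sub, k2, sub_self]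

end Cx

end Vale.Agent.P277Z.Tr
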