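import Vale.Agent.P277Z.Tr.Sk
import Vale.Agent.P267.H68.Cone
import Vale.Agent.P277.H60.Wedge

/-!
# P277Z, block TR: homotheties and translations of forms with compact support
-/

set_option linter.unusedSectionVars false
set_option maxSynthPendingDepth 3

open scoped ContDiff Topology
open Vale.Agent.P267.H175 Set Filter MeasureTheory Module Metric
open Vale.Agent.P267.H928.Int ContinuousAlternatingMap Vale.Agent.P267.H68 Vale.Agent.P277.H60

noncomputable section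

namespace Vale.Agent.P277Z.Tr

namespace Cpl

variable {E : Type} [NormedAddCommGroup E] [NormedSpace ℝ E] [FiniteDimensional ℝ E] {k : ℕ}
  {V K S : Set E} {a a' : E → E [⋀^Fin (k + 1)]→L[ℝ] ℝ} {p : E}

theorem sm_ext {β : E → E [⋀^Fin k]→L[ℝ] ℝ} (h : ContDiff ℝ ∞ β) : ContDiff ℝ ∞ (extDeriv β) :=
  (cd1 (W := E [⋀^Fin k]→L[ℝ] ℝ) (V := E [⋀^Fin (k + 1)]→L[ℝ] ℝ)
    (alternatizeUncurryFinCLM ℝ E ℝ)).comp (h.fderiv_right (m := ∞) (by simp))

theorem prim_add (h : Prim V a) (h' : Prim V a') : Prim V fun x => a x + a' x := by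
  obtain ⟨β, K, h1, h2, h3, h4, h5⟩ := h
  obtain ⟨β', K', h1', h2', h3', h4', h5'⟩ := h'
  refine ⟨fun x => β x + β' x, K ∪ K', h1.add h1', h2.union h2', union_subset h3 h3',
    fun x hx => ?_, fun x => ?_⟩
  · simp only [h4 x fun e => hx (.inl e), h4' x fun e => hx (.inr e), add_zero]
  · rw [extDeriv_fun_add (h1.differentiable (by simp) x) (h1'.differentiable (by simp) x), h5, h5']

theorem prim_of_sub (h : Prim V fun x => a x - a' x) (h' : Prim V a') : Prim V a := by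
  simpa only [sub_add_cancel] using prim_add h h'

theorem prim_zero : Prim V fun _ => (0 : E [⋀^Fin (k + 1)]→L[ℝ] ℝ) :=
  ⟨fun _ => 0, ∅, contDiff_const, isCompact_empty, empty_subset _, fun _ _ => rfl,
    fun x => by ext v; simp [extDeriv_apply]⟩

/-- the rest is again smooth and closed -/
theorem rest (h : Prim V fun x => a x - a' x) (ha : ContDiff ℝ ∞ a) (hd : ∀ x, extDeriv a x = 0) :
    ContDiff ℝ ∞ a' ∧ ∀ x, extDeriv a' x = 0 := by
  obtain ⟨β, -, h1, -, -, -, h5⟩ := h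
  have h2 := sm_ext h1
  have e : a = fun x => extDeriv β x + a' x := funext fun x => by rw [h5, sub_add_cancel]
  have h3 : ContDiff ℝ ∞ a' := by
    rw [show a' = fun x => a x - extDeriv β x from funext fun x => by rw [h5, sub_sub_cancel]]
    exact ha.sub h2
  refine ⟨h3, fun x => ?_⟩
  have h4 := hd x
  rwa [e, extDeriv_fun_add (h2.differentiable (by simp) x) (h3.differentiable (by simp) x),
    extDeriv_extDeriv_apply h1.contDiffAt minS, zero_add] at h4

theorem sm_time {g : E × ℝ → E [⋀^Fin k]→L[ℝ] ℝ} (hg : ContDiff ℝ ∞ g) :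
    ContDiff ℝ ∞ fun x => ∫ t in (0 : ℝ)..1, g (x, t) :=
  contDiffOn_univ.1 (contDiffOn_time (n := ⊤) isOpen_univ hg.contDiffOn)

theorem ext_time {g : E × ℝ → E [⋀^Fin k]→L[ℝ] ℝ} (hg : ContDiff ℝ ∞ g) {x : E}
    {Φ : ℝ → E [⋀^Fin (k + 1)]→L[ℝ] ℝ}
    (h : ∀ t, HasDerivAt Φ (extDeriv (fun y => g (y, t)) x) t) :
    extDeriv (fun x => ∫ t in (0 : ℝ)..1, g (x, t)) x = Φ 1 - Φ 0 :=
  (A_fderiv_time (W := E [⋀^Fin k]→L[ℝ] ℝ) (V := E [⋀^Fin (k + 1)]→L[ℝ] ℝ)
    (alternatizeUncurryFinCLM ℝ E ℝ) (hg.of_le (by simp)) x).trans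
    (intervalIntegral.integral_eq_sub_of_hasDerivAt (fun t _ => h t)
      ((continuous_A_fderiv (W := E [⋀^Fin k]→L[ℝ] ℝ) (V := E [⋀^Fin (k + 1)]→L[ℝ] ℝ)
        (alternatizeUncurryFinCLM ℝ E ℝ) (hg.of_le (by simp)) x).intervalIntegrable _ _))

theorem time_zero {F : Type} [NormedAddCommGroup F] [NormedSpace ℝ F] {g : ℝ → F}
    (h : ∀ t ∈ Icc (0 : ℝ) 1, g t = 0) : ∫ t in (0 : ℝ)..1, g t = 0 :=
  (intervalIntegral.integral_congr (g := fun _ => 0) fun t ht =>
    h t (by rwa [uIcc_of_le zero_le_one] at ht)).trans intervalIntegral.integral_zero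

/-- step (1): homotheties -/
theorem homoth (hV : Convex ℝ V) (hK : IsCompact K) (hKV : K ⊆ V) (hp : p ∈ V)
    (ha : ContDiff ℝ ∞ a) (h0 : ∀ x ∉ K, a x = 0) (hd : ∀ x, extDeriv a x = 0) {T : ℝ}
    (hT : 1 ≤ T) : Prim V fun x => a x - T ^ (k + 1) • a (p + T • (x - p)) := by
  have hg : ContDiff ℝ ∞ fun q : E × ℝ => (1 - T) • hI p a q.1 (T + q.2 * (1 - T)) :=
    ((contDiff_hI p ha).comp (f := fun q : E × ℝ => (q.1, T + q.2 * (1 - T)))
      (by fun_prop)).const_smul _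
  refine ⟨_, (fun q : ℝ × E => p + q.1 • (q.2 - p)) '' Icc 0 1 ×ˢ K, sm_time hg,
    (isCompact_Icc.prod hK).image (by fun_prop), ?_, fun x hx => time_zero fun t ht => ?_,
    fun x => ?_⟩
  · rintro _ ⟨q, hq, rfl⟩
    exact hV.add_smul_sub_mem hp (hKV hq.2) hq.1
  · have h1 : 1 ≤ T + t * (1 - T) := by nlinarith [ht.1, ht.2]
    have h2 : 0 < T + t * (1 - T) := one_pos.trans_le h1
    rw [hI, h0 _ fun e => hx ⟨(_, _), ⟨⟨(inv_pos.2 h2).le, inv_le_one_of_one_le₀ h1⟩, e⟩, by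
      simp [smul_smul, inv_mul_cancel₀ h2.ne']⟩, _root_.map_zero, smul_zero, smul_zero]
  · rw [ext_time hg (Φ := fun t => (T + t * (1 - T)) ^ (k + 1) • a (p + (T + t * (1 - T)) • (x - p)))
      fun t => ?_]
    · simp
    have h1 := (hasDerivAt_homotopy p (x := x) (t := T + t * (1 - T))
      (ha.differentiable (by simp) _)).scomp t (((hasDerivAt_id t).mul_const (1 - T)).const_add T)
    rw [hI, hd, _root_.map_zero, smul_zero, add_zero, one_mul] at h1
    exact h1.congr_deriv (extDeriv_smul (1 - T) fun y => hI p a y (T + t * (1 - T))).symm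

/-- the integral along segments -/
def tI (w : E) (a : E → E [⋀^Fin (k + 1)]→L[ℝ] ℝ) (x : E) : E [⋀^Fin k]→L[ℝ] ℝ :=
  ∫ t in (0 : ℝ)..1, iota w (a (x - t • w))

theorem sm_tI0 (w : E) (ha : ContDiff ℝ ∞ a) :
    ContDiff ℝ ∞ fun q : E × ℝ => iota w (a (q.1 - q.2 • w)) :=
  (iota w).contDiff.comp (ha.comp (by fun_prop))

theorem sm_tI (w : E) (ha : ContDiff ℝ ∞ a) : ContDiff ℝ ∞ (tI w a) := sm_time (sm_tI0 w ha)

theorem tI_apply (w : E) (ha : ContDiff ℝ ∞ a) (x : E) (v : Fin k → E) :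
    tI w a x v = ∫ t in (0 : ℝ)..1, a (x - t • w) (Matrix.vecCons w v) :=
  ((ContinuousAlternatingMap.apply ℝ E ℝ v).intervalIntegral_comp_comm
    (((sm_tI0 w ha).continuous.comp (Continuous.prodMk_right x)).intervalIntegrable _ _)).symm

theorem ext_tI (w : E) (ha : ContDiff ℝ ∞ a) (hd : ∀ x, extDeriv a x = 0) (x : E) :
    extDeriv (tI w a) x = a x - a (x - w) := by
  refine (ext_time (sm_tI0 w ha) (Φ := fun t => -a (x - t • w)) fun t => ?_).trans (by
    simp [neg_add_eq_sub])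
  have h1 := (ha.differentiable (by simp) (x - t • w)).hasFDerivAt
  have h2 := (h1.comp_hasDerivAt t (((hasDerivAt_id t).smul_const w).const_sub x)).neg
  have h3 := (iota w).hasFDerivAt.comp x (h1.comp x ((hasFDerivAt_id x).sub_const (t • w)))
  have h4 := curryLeft_alternatize (fderiv ℝ a (x - t • w)) w
  rw [show alternatizeUncurryFin (fderiv ℝ a (x - t • w)) = 0 from hd _] at h4
  refine h2.congr_deriv ?_
  rw [one_smul, map_neg, neg_neg, extDeriv]
  exact (sub_eq_zero.1 (h4.symm.trans (by ext; simp))).trans (congrArg _ h3.fderiv.symm)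

/-- the cutoff function -/
def chi (ε s : ℝ) : ℝ := Real.smoothTransition ((s - ε) / ε)

theorem sm_chi (ε : ℝ) : ContDiff ℝ ∞ (chi ε) :=
  Real.smoothTransition.contDiff.comp (by fun_prop)

theorem chi_zero {ε s : ℝ} (hε : 0 < ε) (h : s ≤ ε) : chi ε s = 0 :=
  Real.smoothTransition.zero_of_nonpos (div_nonpos_of_nonpos_of_nonneg (by linarith) hε.le)

theorem chi_one {ε s : ℝ} (hε : 0 < ε) (h : 2 * ε ≤ s) : chi ε s = 1 :=
  Real.smoothTransition.one_of_one_le ((one_le_div hε).2 (by linarith))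

theorem deriv_chi {ε s : ℝ} (hε : 0 < ε) (h : 2 * ε < s) : deriv (chi ε) s = 0 := by
  rw [(show chi ε =ᶠ[𝓝 s] fun _ => 1 from
    (eventually_gt_nhds h).mono fun _ e => chi_one hε e.le).deriv_eq, deriv_const]

/-- the form after step (2) -/
def stp (l : E →L[ℝ] ℝ) (e p : E) (ε : ℝ) (a : E → E [⋀^Fin (k + 1)]→L[ℝ] ℝ) (x : E) :
    E [⋀^Fin (k + 1)]→L[ℝ] ℝ :=
  deriv (chi ε) (l (x - p)) • wedge1 l (tI ((3 * ε) • e) a x)

/-- the support after step (2) -/
def swp (l : E →L[ℝ] ℝ) (e p : E) (ε : ℝ) (S : Set E) : Set E :=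
  {x | l (x - p) ≤ 2 * ε ∧ ∃ t ∈ Icc (0 : ℝ) 1, x - t • (3 * ε) • e ∈ S}

variable {l : E →L[ℝ] ℝ} {e : E} {ε : ℝ}

theorem zero_of_swp (h0 : ∀ x ∉ S, a x = 0) {x : E} (hx : x ∉ swp l e p ε S) :
    2 * ε < l (x - p) ∨ tI ((3 * ε) • e) a x = 0 :=
  (lt_or_ge _ _).imp_right fun h => time_zero fun t ht => by
    rw [h0 _ fun e => hx ⟨h, t, ht, e⟩, _root_.map_zero]

theorem stp_zero (hε : 0 < ε) (h0 : ∀ x ∉ S, a x = 0) {x : E} (hx : x ∉ swp l e p ε S) :
    stp l e p ε a x = 0 := by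
  rcases zero_of_swp h0 hx with h | h
  · rw [stp, deriv_chi hε h, zero_smul]
  · rw [stp, h, wedge1_zero_right, smul_zero]

/-- step (2): translations -/
theorem step (hl : l e = 1) (hε : 0 < ε) (hS : ∀ x ∈ S, |l (x - p)| ≤ ε) (hK : IsCompact K)
    (hKV : K ⊆ V) (hSK : swp l e p ε S ⊆ K) (ha : ContDiff ℝ ∞ a) (h0 : ∀ x ∉ S, a x = 0)
    (hd : ∀ x, extDeriv a x = 0) : Prim V fun x => a x - stp l e p ε a x := by
  have h1 : ContDiff ℝ ∞ fun x => 1 - chi ε (l (x - p)) :=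
    contDiff_const.sub ((sm_chi ε).comp (by fun_prop))
  have h2 := sm_tI ((3 * ε) • e) ha
  refine ⟨fun x => (1 - chi ε (l (x - p))) • tI ((3 * ε) • e) a x, K, h1.smul h2, hK, hKV,
    fun x hx => ?_, fun x => ?_⟩
  · rcases zero_of_swp h0 fun e => hx (hSK e) with h | h
    · simp only [chi_one hε h.le, sub_self, zero_smul]
    · simp only [h, smul_zero]
  have h3 := (((sm_chi ε).differentiable (by simp) _).hasDerivAt.comp_hasFDerivAt x
    (l.hasFDerivAt.comp x ((hasFDerivAt_id x).sub_const p))).const_sub 1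
  rw [extDeriv_smul_fun (h1.differentiable (by simp) x) (h2.differentiable (by simp) x),
    ext_tI _ ha hd, show fderiv ℝ (fun x => 1 - chi ε (l (x - p))) x = _ from h3.fderiv,
    ← neg_smul, ContinuousLinearMap.comp_id, wedge1_smul_left, neg_smul, ← sub_eq_add_neg, smul_sub]
  congr 1
  have h4 : (1 - chi ε (l (x - p))) • a (x - (3 * ε) • e) = 0 := by
    by_cases h : x - (3 * ε) • e ∈ S
    · have h5 := (abs_le.1 (hS _ h)).1
      rw [sub_right_comm, map_sub, map_smul, hl, smul_eq_mul] at h5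
      rw [chi_one hε (by linarith), sub_self, zero_smul]
    · rw [h0 _ h, smul_zero]
  rw [h4, sub_zero]
  by_cases h : x ∈ S
  · rw [chi_zero hε (abs_le.1 (hS _ h)).2, sub_zero, one_smul]
  · rw [h0 _ h, smul_zero]

end Cpl

end Vale.Agent.P277Z.Tr
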