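import Vale.Agent.P277Z.Tr.Defs

/-!
# P277Z, block TR: statements
-/

set_option linter.all false
set_option maxSynthPendingDepth 3

open scoped Manifold ContDiff Topology
open Vale.Agent.P267.H175 Set Filter MeasureTheory Module
open Vale.Agent.P267.H928.Int ContinuousAlternatingMap
open Vale.Agent.P272.K (Cm Chart At)

noncomputable section

namespace Vale.Agent.P277Z.Tr

/-- `a` has a smooth primitive with compact support in `V`. -/
def Prim {E : Type} [NormedAddCommGroup E] [NormedSpace ℝ E] {k : ℕ} (V : Set E)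
    (a : E → E [⋀^Fin (k + 1)]→L[ℝ] ℝ) : Prop :=
  ∃ (β : E → E [⋀^Fin k]→L[ℝ] ℝ) (K : Set E), ContDiff ℝ ∞ β ∧ IsCompact K ∧ K ⊆ V ∧
    (∀ x ∉ K, β x = 0) ∧ ∀ x, extDeriv β x = a x

/-- **CPL**: the lemma of Poincare with compact supports in convex sets, below the top degree -/
def CPL : Prop :=
  ∀ (E : Type) [NormedAddCommGroup E] [NormedSpace ℝ E] [FiniteDimensional ℝ E] (V K : Set E)
    (k : ℕ) (a : E → E [⋀^Fin (k + 1)]→L[ℝ] ℝ), IsOpen V → Convex ℝ V → IsCompact K → K ⊆ V →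
    ContDiff ℝ ∞ a → (∀ x ∉ K, a x = 0) → (∀ x, extDeriv a x = 0) → k + 1 < finrank ℝ E →
    Prim V a

/-- **CPT**: the same in the top degree -/
def CPT : Prop :=
  ∀ (E : Type) [NormedAddCommGroup E] [NormedSpace ℝ E] [FiniteDimensional ℝ E]
    [MeasurableSpace E] [BorelSpace E] (μ : Measure E) [μ.IsAddHaarMeasure] (V K : Set E)
    (k : ℕ) (b : Basis (Fin (k + 1)) ℝ E) (a : E → E [⋀^Fin (k + 1)]→L[ℝ] ℝ), IsOpen V →
    Convex ℝ V → IsCompact K → K ⊆ V → ContDiff ℝ ∞ a → (∀ x ∉ K, a x = 0) →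
    ∫ x, a x b ∂μ = 0 → Prim V a

/-- sets of measure zero in a complex manifold -/
def Null (d : ℕ) {X : Type*} [TopologicalSpace X] [ChartedSpace (Cm d) X] (A : Set X) : Prop :=
  ∀ e ∈ atlas (Cm d) X, volume (e '' (A ∩ e.source)) = 0

/-- The holomorphic map `μ` is an isomorphism over the open set `O`, with inverse `ψ`; the
complements of `O` and of its preimage have measure zero. -/
structure Bim (d : ℕ) {X Y : Type*} [TopologicalSpace X] [ChartedSpace (Cm d) X]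
    [TopologicalSpace Y] [ChartedSpace (Cm d) Y] (μ : X → Y) (O : Set Y) (ψ : Y → X) : Prop where
  hol : HolM d d μ
  isOpen : IsOpen O
  sm : ∀ y ∈ O, SmM (Cm d) (Cm d) ψ y
  left : ∀ x, μ x ∈ O → ψ (μ x) = x
  right : ∀ y ∈ O, μ (ψ y) = y
  null : Null d Oᶜ
  null' : Null d (μ ⁻¹' O)ᶜ

/-- **DEG1**: bimeromorphic maps preserve integrals -/
def DEG1 : Prop :=
  ∀ (d n : ℕ) (b : Basis (Fin n) ℝ (Cm d)) (X Y : Type) [TopologicalSpace X] [T2Space X]
    [CompactSpace X] [ChartedSpace (Cm d) X] [IsManifold 𝓘(ℂ, Cm d) ω X] [TopologicalSpace Y]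
    [T2Space Y] [CompactSpace Y] [ChartedSpace (Cm d) Y] [IsManifold 𝓘(ℂ, Cm d) ω Y] (μ : X → Y)
    (O : Set Y) (ψ : Y → X), Bim d μ O ψ → ∀ a : Fm d n Y, (∀ y, SmAt a y) →
    intG volume b (pb (Cm d) μ a) = intG volume b a

/-- The differential of `F` at `x` in the preferred charts. -/
def dM (d' d : ℕ) {X Y : Type*} [TopologicalSpace X] [ChartedSpace (Cm d') X]
    [TopologicalSpace Y] [ChartedSpace (Cm d) Y] (F : X → Y) (x : X) : Cm d' →L[ℂ] Cm d :=
  fderiv ℂ (fun z => chartAt (Cm d) (F x) (F ((chartAt (Cm d') x).symm z))) (chartAt (Cm d') x x)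

/-- The differential of `F` is nowhere injective. -/
def Ctr (d' d : ℕ) {X Y : Type*} [TopologicalSpace X] [ChartedSpace (Cm d') X]
    [TopologicalSpace Y] [ChartedSpace (Cm d) Y] (F : X → Y) : Prop :=
  ∀ x, ¬ Function.Injective (dM d' d F x)

/-- **SLICE**: a general slice of codimension `n` meets the image of a contracted manifold of
dimension `n + 1` in a countable set -/
def SLICE : Prop :=
  ∀ (n d : ℕ) (D Y : Type) [TopologicalSpace D] [T2Space D] [CompactSpace D]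
    [ChartedSpace (Cm (n + 1)) D] [IsManifold 𝓘(ℂ, Cm (n + 1)) ω D] [TopologicalSpace Y]
    [ChartedSpace (Cm d) Y] [IsManifold 𝓘(ℂ, Cm d) ω Y] (f : D → Y) (e : Chart d Y)
    (v : Cm d →L[ℂ] Cm n), HolM (n + 1) d f → Ctr (n + 1) d f → e ∈ atlas (Cm d) Y →
    ∀ᵐ c : Cm n, {y | y ∈ range f ∧ y ∈ e.source ∧ v (e y) = c}.Countable

/-- **INJ**: maps of degree one are injective in de Rham cohomology -/
def INJ : Prop :=
  ∀ (E : Type) [NormedAddCommGroup E] [NormedSpace ℝ E] [FiniteDimensional ℝ E]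
    [MeasurableSpace E] [BorelSpace E] (μ : Measure E) [μ.IsAddHaarMeasure] (m : ℕ)
    (b : Basis (Fin (m + 1)) ℝ E) (X Y : Type) [TopologicalSpace X] [T2Space X] [CompactSpace X]
    [ChartedSpace E X] [IsManifold 𝓘(ℝ, E) ∞ X] [PosAtlas E X] [TopologicalSpace Y] [T2Space Y]
    [CompactSpace Y] [ChartedSpace E Y] [IsManifold 𝓘(ℝ, E) ∞ Y] [PosAtlas E Y] (F : X → Y),
    (∀ x, SmM E E F x) → (∀ a : Y → E [⋀^Fin (m + 1)]→L[ℝ] ℝ, (∀ y, SmAt a y) →
      intG μ b (pb E F a) = intG μ b a) →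
    ∀ (k : ℕ) (τ : Y → E [⋀^Fin (k + 1)]→L[ℝ] ℝ) (θ : X → E [⋀^Fin k]→L[ℝ] ℝ), k ≤ m →
      (∀ y, SmAt τ y) → (∀ y, dF τ y = 0) → (∀ x, SmAt θ x) → (∀ x, dF θ x = pb E F τ x) →
      ∃ β : Y → E [⋀^Fin k]→L[ℝ] ℝ, (∀ y, SmAt β y) ∧ ∀ y, dF β y = τ y

end Vale.Agent.P277Z.Tr
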